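import Vale.Agent.P277.H371.I.Loc
import Vale.Agent.P272.K.Inv.Chart

/-!
# P277, T6 (I): integrality for the data `Stp`
-/

open scoped Manifold ContDiff ComplexOrder Topology
open Vale.Agent.P272.K Vale.Agent.P285.H281.FD Vale.Agent.P267.H175 Set Metric Filter

noncomputable section

namespace Vale.Agent.P277.H371.I

open Vale.Agent.P277.TX Vale.Agent.P277.H19 Vale.Agent.P277.H884 Vale.Agent.P277.H884.S

section lb
variable {Y : Type} [TopologicalSpace Y] [ChartedSpace (Cm 4) Y] [IsManifold 𝓘(ℂ, Cm 4) ω Y]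

theorem isLB_can : IsLB 4 (Bd.can 4 Y) where
  isOpen e := by
    by_cases he : e ∈ atlas (Cm 4) Y
    · have h1 : (Bd.can 4 Y).U e = e.source := by
        ext x
        exact ⟨fun h => h.2, fun h => ⟨he, h⟩⟩
      rw [h1]
      exact e.open_source
    · have h1 : (Bd.can 4 Y).U e = ∅ := by
        ext x
        exact ⟨fun h => he h.1, fun h => h.elim⟩
      rw [h1]
      exact isOpen_empty
  cover x := ⟨chartAt (Cm 4) x, chart_mem_atlas _ _, mem_chart_source _ _⟩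
  holo i j e x he hi hj := by
    have h1 : (fun z => (Bd.can 4 Y).g i j (e.symm z)) =ᶠ[𝓝 (e x)]
        fun z => (jacM e j (e.symm z)).det * ((jacM e i (e.symm z)).det)⁻¹ := by
      have h2 : ∀ᶠ z in 𝓝 (e x), At e (e.symm z) ∧ At i (e.symm z) ∧ At j (e.symm z) := by
        have hc : ContinuousAt e.symm (e x) := e.continuousAt_symm (e.map_source he.2)
        have h3 : ∀ e' : Chart 4 Y, At e' x → ∀ᶠ z in 𝓝 (e x), At e' (e.symm z) := fun e' he' => by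
          have h4 : e'.source ∈ 𝓝 (e.symm (e x)) := by
            rw [e.left_inv he.2]; exact e'.open_source.mem_nhds he'.2
          filter_upwards [hc.eventually_mem h4] with z hz using ⟨he'.1, hz⟩
        exact (h3 e he).and ((h3 i hi).and (h3 j hj))
      filter_upwards [h2] with z hz
      show (jacM i j (e.symm z)).det = _
      rw [jacM_comp hz.2.1 hz.1 hz.2.2, Matrix.det_mul]
      congr 1
      have h3 := congrArg Matrix.det (jacM_mul hz.1 hz.2.1)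
      rw [Matrix.det_mul, Matrix.det_one] at h3
      exact eq_inv_of_mul_eq_one_left h3
    exact ((jacM_det_holo he hj).mul ((jacM_det_holo he hi).inv (by
      rw [e.left_inv he.2]; exact jacM_det_ne_zero he hi))).congr_of_eventuallyEq h1
  ne_zero i j x hi hj := jacM_det_ne_zero hi hj
  cocycle i j k x hi hj hk := by
    show (jacM i j x).det * (jacM j k x).det = (jacM i k x).det
    rw [jacM_comp hi hj hk, Matrix.det_mul, mul_comm]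

omit [IsManifold 𝓘(ℂ, Cm 4) ω Y] in
theorem isLB_pow {M : Bd Y} (h : IsLB 4 M) (k : ℕ) : IsLB 4 (M.pow k) where
  isOpen := h.isOpen
  cover := h.cover
  holo i j e x he hi hj := (h.holo i j e x he hi hj).pow k
  ne_zero i j x hi hj := pow_ne_zero k (h.ne_zero i j x hi hj)
  cocycle i j l x hi hj hl := by
    show M.g i j x ^ k * M.g j l x ^ k = M.g i l x ^ k
    rw [← mul_pow, h.cocycle i j l x hi hj hl]

omit [IsManifold 𝓘(ℂ, Cm 4) ω Y] in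
theorem isLB_mul {M N : Bd Y} (h : IsLB 4 M) (h' : IsLB 4 N) : IsLB 4 (M.mul N) where
  isOpen i := (h.isOpen i.1).inter (h'.isOpen i.2)
  cover x := by
    obtain ⟨i, hi⟩ := h.cover x
    obtain ⟨j, hj⟩ := h'.cover x
    exact ⟨(i, j), hi, hj⟩
  holo i j e x he hi hj := (h.holo _ _ e x he hi.1 hj.1).mul (h'.holo _ _ e x he hi.2 hj.2)
  ne_zero i j x hi hj := mul_ne_zero (h.ne_zero _ _ x hi.1 hj.1) (h'.ne_zero _ _ x hi.2 hj.2)
  cocycle i j l x hi hj hl := by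
    have h1 := h.cocycle i.1 j.1 l.1 x hi.1 hj.1 hl.1
    have h2 := h'.cocycle i.2 j.2 l.2 x hi.2 hj.2 hl.2
    show M.g i.1 j.1 x * N.g i.2 j.2 x * (M.g j.1 l.1 x * N.g j.2 l.2 x) =
      M.g i.1 l.1 x * N.g i.2 l.2 x
    rw [← h1, ← h2]
    ring

end lb

variable {X : CSp} {S V : Set X.pt} {G : X.pt → Cm 4} {c : Cm 4} {r : ℝ} {d : ℕ}
  {lam : X.pt → ℂ} {θ : Cm 4 → ℂ} {n : ℕ} {ζ : Fin n → X.pt → ℂ} {a : Fin d → X.pt → ℂ}
  {b κ : Cm 4 → ℂ} {N : ℕ} {s : Fin d → ℕ} {σ : Equiv.Perm (Fin d)} {φ : Fin d → Cm 4 → X.pt}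
  {w₁ : Cm 4}
variable {Y : Type} [TopologicalSpace Y] [T2Space Y] [CompactSpace Y] [ChartedSpace (Cm 4) Y]
  [IsManifold 𝓘(ℂ, Cm 4) ω Y] {O : Set Y} {v : Y → X.pt}

theorem nsec_of_iso {L : Bd X.pt} (hL : IsLBx X L) {N : Bd Y} (hN : IsLB 4 N) {Q : ℕ} (hQ : 1 ≤ Q)
    {T : L.ι → (N.pow Q).ι → Y → ℂ} (hT : IsIsoY O v L (N.pow Q) T) {i₀ : L.ι} (hV : V ⊆ L.U i₀) :
    NSec V O v N Q (T i₀) where
  pos := hQ
  cont y hy hyV j hj := by
    set e : Chart 4 Y := chartAt (Cm 4) y with he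
    have heA : At e y := ⟨chart_mem_atlas _ _, mem_chart_source _ _⟩
    have h1 := (hT.holo y hy i₀ j e heA (hV hyV) hj).1.continuousAt
    have h2 : ContinuousAt (fun x => T i₀ j (e.symm (e x))) y :=
      ContinuousAt.comp (g := fun z => T i₀ j (e.symm z)) (f := e) h1 (e.continuousAt heA.2)
    refine h2.congr ?_
    filter_upwards [e.open_source.mem_nhds heA.2] with x hx
    rw [e.left_inv hx]
  ne y hy hyV j hj :=
    (hT.holo y hy i₀ j (chartAt (Cm 4) y) ⟨chart_mem_atlas _ _, mem_chart_source _ _⟩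
      (hV hyV) hj).2
  change y hy hyV j k hj hk := by
    have h1 := hT.change y hy i₀ i₀ k j (hV hyV) (hV hyV) hk hj
    have h2 : L.g i₀ i₀ (v y) = 1 := by
      have h3 := hL.cocycle i₀ i₀ i₀ (v y) (hV hyV) (hV hyV) (hV hyV)
      exact mul_left_cancel₀ (hL.ne_zero i₀ i₀ (v y) (hV hyV) (hV hyV)) (by rw [h3, mul_one])
    rw [h2, one_mul] at h1
    rw [h1, mul_comm]
    rfl

/-- **integrality of `λ_e`** -/
theorem int_stp (h : Stp X S V G r d lam θ ζ a b κ N s σ φ w₁) (hv : IsOpenEmb X O v)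
    (hO : DimLe X 2 (v '' O)ᶜ) {L : Bd X.pt} (hL : IsLBx X L) {i₀ : L.ι} (hVi : V ⊆ L.U i₀)
    {M : Bd Y} (hM : IsLB 4 M) {m Q : ℕ} (hQ : 1 ≤ Q)
    {T : L.ι → ((((Bd.can 4 Y).pow m).mul M).pow Q).ι → Y → ℂ}
    (hT : IsIsoY O v L ((((Bd.can 4 Y).pow m).mul M).pow Q) T)
    {γ : Fin d → Cm 4 → Y} {ch : Fin d → Chart 4 Y} {μ : Fin d → M.ι} {i : Fin d → L.ι}
    (hγ : ∀ k, ContinuousAt (γ k) w₁) (hch : ∀ k, At (ch k) (γ k w₁))
    (hμ : ∀ k, γ k w₁ ∈ M.U (μ k)) (hi : ∀ k, φ k w₁ ∈ L.U (i k))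
    (hlift : ∀ k, ∀ᶠ w in 𝓝 w₁, φ k w ∈ v '' O → γ k w ∈ O ∧ v (γ k w) = φ k w)
    {K : Fin d → ℕ} (hK : ∀ k, 1 ≤ K k)
    {ν : Fin d → ℤ} {Φ : Fin d → Cm 4 → ℂ} (hΦ : ∀ k, ContinuousAt (Φ k) w₁ ∧ Φ k w₁ ≠ 0)
    (hord : ∀ k, ∀ᶠ w in 𝓝 w₁, γ k w ∈ O → w 0 ≠ 0 →
      T (i k) (ch k, μ k) (γ k w) ^ K k = w 0 ^ ν k * Φ k w) :
    ∃ n : ℤ, ∑ k, (ν k : ℝ) / (Q * K k * s k) = n := by
  have hN : IsLB 4 (((Bd.can 4 Y).pow m).mul M) := isLB_mul (isLB_pow isLB_can m) hM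
  have hφc : ∀ k, HolAt X (φ k) w₁ := fun k => (h.pui k).self_of_nhds.1
  have hφV : ∀ k, φ k w₁ ∈ V := fun k => (h.pui k).self_of_nhds.2.1
  have hgan : ∀ k, AnalyticAt ℂ (fun w => L.g (i k) i₀ (φ k w)) w₁ := fun k =>
    (hφc k).2 _ (hL.holo _ _ _ (hi k) (hVi (hφV k)))
  refine int_sum (M := ((Bd.can 4 Y).pow m).mul M) (T := T i₀) (μ := fun k => (ch k, μ k))
    (Φ := fun k w => L.g (i k) i₀ (φ k w) ^ K k * Φ k w) h.good.toIsCov hv hO hN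
    (nsec_of_iso hL hN hQ hT hVi) h.w0 (mem_ball_self h.good.pos) h.θne h.N1
    (fun k => ⟨(h.s1 k).1, (h.s1 k).2.2⟩) h.enum hγ hlift (fun k => ⟨hch k, hμ k⟩) hK
    (fun k => ⟨((hgan k).continuousAt.pow _).mul (hΦ k).1,
      mul_ne_zero (pow_ne_zero _ (hL.ne_zero _ _ _ (hi k) (hVi (hφV k)))) (hΦ k).2⟩) fun k => ?_
  have c1 : ∀ᶠ w in 𝓝 w₁, At (ch k) (γ k w) := by
    filter_upwards [(hγ k).eventually_mem ((ch k).open_source.mem_nhds (hch k).2)] with w hw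
    exact ⟨(hch k).1, hw⟩
  filter_upwards [hord k, c1, (hγ k).eventually_mem ((hM.isOpen (μ k)).mem_nhds (hμ k)),
    (hφc k).1.eventually_mem ((hL.isOpen (i k)).mem_nhds (hi k))]
    with w h1 h3 h4 h5 hwO hwV h2 hw0
  have h6 := hT.change (γ k w) hwO (i k) i₀ (ch k, μ k) (ch k, μ k) (by rw [h2]; exact h5)
    (hVi hwV) ⟨h3, h4⟩ ⟨h3, h4⟩
  have h7 : ((((Bd.can 4 Y).pow m).mul M).pow Q).g (ch k, μ k) (ch k, μ k) (γ k w) = 1 := by
    have hN' := isLB_pow hN Q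
    have h8 := hN'.cocycle (ch k, μ k) (ch k, μ k) (ch k, μ k) (γ k w) ⟨h3, h4⟩ ⟨h3, h4⟩ ⟨h3, h4⟩
    exact mul_left_cancel₀ (hN'.ne_zero (ch k, μ k) (ch k, μ k) (γ k w) ⟨h3, h4⟩ ⟨h3, h4⟩)
      (by rw [h8, mul_one])
  rw [h7, mul_one, h2] at h6
  rw [h6, mul_pow, h1 hwO hw0]
  ring

/-- **integrality of `n_l`** (orders of local functions, e.g. local equations of `G l`) -/
theorem int_loc_stp (h : Stp X S V G r d lam θ ζ a b κ N s σ φ w₁) (hv : IsOpenEmb X O v)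
    (hO : DimLe X 2 (v '' O)ᶜ) {γ : Fin d → Cm 4 → Y} (hγ : ∀ k, ContinuousAt (γ k) w₁)
    (hlift : ∀ k, ∀ᶠ w in 𝓝 w₁, φ k w ∈ v '' O → γ k w ∈ O ∧ v (γ k w) = φ k w)
    {g : Y → Y → ℂ} {ν : Fin d → ℤ} {Φ : Fin d → Cm 4 → ℂ}
    (hΦ : ∀ k, ContinuousAt (Φ k) w₁ ∧ Φ k w₁ ≠ 0)
    (hord : ∀ k, ∀ᶠ w in 𝓝 w₁, γ k w ∈ O → w 0 ≠ 0 → g (γ k w₁) (γ k w) = w 0 ^ ν k * Φ k w) :
    ∃ n : ℤ, ∑ k, (ν k : ℝ) / s k = n :=
  int_loc h.good.toIsCov hv hO h.w0 (mem_ball_self h.good.pos) h.θne h.N1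
    (fun k => ⟨(h.s1 k).1, (h.s1 k).2.2⟩) h.enum hγ hlift (h := g) hΦ fun k => by
      filter_upwards [hord k] with w h1 hwO _ _ hw0 using h1 hwO hw0

end Vale.Agent.P277.H371.I
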