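import Vale.Agent.P277.H884.Dis2
import Vale.Agent.P277.Stmts4
import Mathlib.Analysis.Analytic.IsolatedZeros
import Mathlib.Analysis.Analytic.Uniqueness

/-!
# P277, T6 (I): a generic disc whose boundary is contained in the exceptional region
-/

open scoped Manifold ContDiff ComplexOrder Topology
open Vale.Agent.P272.K Vale.Agent.P285.H281.FD Vale.Agent.P267.H175 Set Metric Filter

noncomputable section

namespace Vale.Agent.P277.H371.I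

open Vale.Agent.P277.TX Vale.Agent.P277.H884

/-- the disc -/
def dsc (s : ℂ) (u : Cm 3) (ζ : ℂ) : Cm 4 := ![ζ, ζ * s + u 0, u 1, u 2]

theorem analyticAt_dsc (s : ℂ) (u : Cm 3) (ζ : ℂ) : AnalyticAt ℂ (dsc s u) ζ := by
  refine AnalyticAt.pi fun k => ?_
  fin_cases k
  · exact analyticAt_id
  · exact (analyticAt_id.mul analyticAt_const).add analyticAt_const
  · exact analyticAt_const
  · exact analyticAt_const

theorem continuous_dsc (s : ℂ) (u : Cm 3) : Continuous (dsc s u) :=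
  continuous_iff_continuousAt.2 fun ζ => (analyticAt_dsc s u ζ).continuousAt

theorem bl_dsc (s : ℂ) (u : Cm 3) {ζ : ℂ} (hζ : ζ ≠ 0) :
    bl ![ζ, s + u 0 / ζ, u 1, u 2] = dsc s u ζ := by
  ext l
  fin_cases l
  · rfl
  · show ζ * (s + u 0 / ζ) = ζ * s + u 0
    field_simp
  · rfl
  · rfl

theorem exists_disc {c : Cm 4} {r : ℝ} {E : Set (Cm 4)} (hE : Thin 2 (ball c r) E)
    {θ : Cm 4 → ℂ} (hθan : ∀ z ∈ ball c r, AnalyticAt ℂ θ z) {w₁ : Cm 4} (h0 : w₁ 0 = 0)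
    (hw₁ : bl w₁ ∈ ball c r) (hθ : ∀ᶠ w in 𝓝 w₁, w 0 ≠ 0 → θ (bl w) ≠ 0) {P : Cm 4 → Prop}
    (hP : ∀ᶠ w in 𝓝 w₁, P w) {N : ℕ} (hN : 1 ≤ N) :
    ∃ (ε : ℝ) (u : Cm 3), 0 < ε ∧
      (∀ ζ ∈ closedBall (0 : ℂ) (ε ^ N), dsc (w₁ 1) u ζ ∈ ball c r ∧ dsc (w₁ 1) u ζ ∉ E ∧
        ∀ᶠ ζ' in 𝓝[≠] ζ, θ (dsc (w₁ 1) u ζ') ≠ 0) ∧
      (∀ w : ℂ, ‖w‖ = ε → ∀ j, 1 ≤ j → P ![w ^ j, w₁ 1 + u 0 / w ^ N, u 1, u 2]) ∧
      ∀ w : ℂ, ‖w‖ = ε → θ (dsc (w₁ 1) u (w ^ N)) ≠ 0 := by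
  set s : ℂ := w₁ 1 with hs
  obtain ⟨η, hη0, hηb⟩ := Metric.eventually_nhds_iff_ball.1 (hP.and hθ)
  obtain ⟨-, Ω, g, hΩ, hg, hE₀g⟩ := hE
  let D' : Cm 4 → Cm 4 := fun u => ![u 0, u 0 * s + u 1, u 2, u 3]
  have hD'c : Continuous D' := by
    refine continuous_pi fun k => ?_
    fin_cases k
    · exact continuous_apply 0
    · exact ((continuous_apply 0).mul continuous_const).add (continuous_apply 1)
    · exact continuous_apply 2
    · exact continuous_apply 3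
  let p₀ : Cm 4 := ![0, 0, w₁ 2, w₁ 3]
  have hp₀ : D' p₀ = bl w₁ := by
    ext k
    fin_cases k <;> simp [D', p₀, bl, h0]
  have hη1 : ∀ᶠ u in 𝓝 p₀, D' u ∈ ball c r := by
    refine hD'c.continuousAt.eventually_mem ?_
    rw [hp₀]
    exact isOpen_ball.mem_nhds hw₁
  obtain ⟨η₁, hη10, hη1b⟩ := Metric.eventually_nhds_iff_ball.1 hη1
  set ε : ℝ := min (min η η₁) 1 / 2 with hε
  have hm0 : 0 < min (min η η₁) 1 := lt_min (lt_min hη0 hη10) one_pos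
  have hε0 : 0 < ε := half_pos hm0
  have hεη : ε < η := by
    have := (min_le_left (min η η₁) 1).trans (min_le_left η η₁)
    linarith
  have hεη1 : ε < η₁ := by
    have := (min_le_left (min η η₁) 1).trans (min_le_right η η₁)
    linarith
  have hε1 : ε ≤ 1 := by
    have := min_le_right (min η η₁) 1
    linarith
  have hεN0 : 0 < ε ^ N := pow_pos hε0 N
  have hεj : ∀ j, 1 ≤ j → ε ^ j ≤ ε := fun j hj => by
    calc ε ^ j ≤ ε ^ 1 := pow_le_pow_of_le_one hε0.le hε1 hj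
      _ = ε := pow_one ε
  set η₂ : ℝ := min (min η η₁) (ε ^ N * η) with hη₂
  have hη20 : 0 < η₂ := lt_min (lt_min hη0 hη10) (mul_pos hεN0 hη0)
  have hη2η : η₂ ≤ η := (min_le_left _ _).trans (min_le_left _ _)
  have hη2η1 : η₂ ≤ η₁ := (min_le_left _ _).trans (min_le_right _ _)
  have hη2ε : η₂ ≤ ε ^ N * η := min_le_right _ _
  let F : Cm 4 → Cm 3 := fun z => ![z 1 - z 0 * s, z 2, z 3]
  have hFan : ∀ z, AnalyticAt ℂ F z := by
    intro z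
    have hp : ∀ k, AnalyticAt ℂ (fun z : Cm 4 => z k) z := fun k =>
      (ContinuousLinearMap.proj (R := ℂ) (φ := fun _ : Fin 4 => ℂ) k).analyticAt z
    refine AnalyticAt.pi fun k => ?_
    fin_cases k
    · exact (hp 1).sub ((hp 0).mul analyticAt_const)
    · exact hp 2
    · exact hp 3
  have hFg : ∀ k, ContDiffOn ℝ 1 (fun p => F (g k p)) (Ω k) := fun k p hp =>
    (((hFan _).fun_comp (hg k p hp)).restrictScalars (𝕜 := ℝ)).contDiffAt.contDiffWithinAt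
  obtain ⟨-, hdense⟩ := b2_three (c := ![0, w₁ 2, w₁ 3]) (r := η₂) hη20 hΩ hFg
  obtain ⟨u, hub, huE⟩ : ∃ u : Cm 3, u ∈ ball (![0, w₁ 2, w₁ 3] : Cm 3) η₂ ∧
      u ∉ ⋃ k, (fun p => F (g k p)) '' Ω k := by
    have h1 := hdense (mem_ball_self hη20)
    obtain ⟨u, hu⟩ := (closure_nonempty_iff.1 ⟨_, h1⟩)
    exact ⟨u, hu.1, hu.2⟩
  rw [mem_ball, dist_pi_lt_iff hη20] at hub
  have hu0 : ‖u 0‖ < η₂ := by simpa using hub 0
  have hu1 : dist (u 1) (w₁ 2) < η₂ := hub 1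
  have hu2 : dist (u 2) (w₁ 3) < η₂ := hub 2
  have hDr : ∀ ζ ∈ closedBall (0 : ℂ) (ε ^ N), dsc s u ζ ∈ ball c r := by
    intro ζ hζ
    rw [mem_closedBall_zero_iff] at hζ
    refine hη1b ![ζ, u 0, u 1, u 2] ?_
    rw [mem_ball, dist_pi_lt_iff hη10]
    intro l
    fin_cases l
    · simpa [p₀] using (hζ.trans (hεj N hN)).trans_lt hεη1
    · simpa [p₀] using hu0.trans_le hη2η1
    · exact hu1.trans_le hη2η1
    · exact hu2.trans_le hη2η1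
  have hDE : ∀ ζ ∈ closedBall (0 : ℂ) (ε ^ N), dsc s u ζ ∉ E := by
    intro ζ hζ' hζ
    obtain ⟨k, p, hp, hpz⟩ := mem_iUnion.1 (hE₀g ⟨hDr ζ hζ', hζ⟩)
    refine huE (mem_iUnion.2 ⟨k, p, hp, ?_⟩)
    show F (g k p) = u
    rw [hpz]
    ext l
    fin_cases l <;> simp [F, dsc]
  have hwb : ∀ w : ℂ, ‖w‖ = ε → ∀ j, 1 ≤ j → ![w ^ j, s + u 0 / w ^ N, u 1, u 2] ∈ ball w₁ η := by
    intro w hw j hj
    rw [mem_ball, dist_pi_lt_iff hη0]
    intro l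
    fin_cases l
    · show dist (w ^ j) (w₁ 0) < η
      rw [h0, dist_zero_right, norm_pow, hw]
      exact (hεj j hj).trans_lt hεη
    · show dist (s + u 0 / w ^ N) (w₁ 1) < η
      rw [dist_eq_norm, ← hs, add_sub_cancel_left, norm_div, norm_pow, hw, div_lt_iff₀ hεN0,
        mul_comm]
      exact hu0.trans_le hη2ε
    · exact hu1.trans_le hη2η
    · exact hu2.trans_le hη2η
  have hθD : ∀ w : ℂ, ‖w‖ = ε → θ (dsc s u (w ^ N)) ≠ 0 := by
    intro w hw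
    have hw0 : w ^ N ≠ 0 := by
      rw [← norm_ne_zero_iff, norm_pow, hw]
      exact hεN0.ne'
    have h1 := (hηb _ (hwb w hw N hN)).2 hw0
    rwa [bl_dsc s u hw0] at h1
  refine ⟨ε, u, hε0, fun ζ hζ => ⟨hDr ζ hζ, hDE ζ hζ, ?_⟩, fun w hw j hj =>
    (hηb _ (hwb w hw j hj)).1, hθD⟩
  have han : ∀ ζ ∈ closedBall (0 : ℂ) (ε ^ N), AnalyticAt ℂ (fun ζ => θ (dsc s u ζ)) ζ :=
    fun ζ hζ => (hθan _ (hDr ζ hζ)).comp (analyticAt_dsc s u ζ)
  rcases (han ζ hζ).eventually_eq_zero_or_eventually_ne_zero with h1 | h1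
  · have h2 : EqOn (fun ζ => θ (dsc s u ζ)) 0 (closedBall (0 : ℂ) (ε ^ N)) :=
      AnalyticOnNhd.eqOn_zero_of_preconnected_of_eventuallyEq_zero han
        (convex_closedBall (0 : ℂ) (ε ^ N)).isPreconnected hζ h1
    have hεn : ‖(ε : ℂ)‖ = ε := by rw [Complex.norm_real, Real.norm_of_nonneg hε0.le]
    have h3 : ((ε : ℂ) ^ N) ∈ closedBall (0 : ℂ) (ε ^ N) := by
      rw [mem_closedBall_zero_iff, norm_pow, hεn]
    exact (hθD ε hεn (h2 h3)).elim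
  · exact h1

end Vale.Agent.P277.H371.I
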