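import Vale.Agent.P277.H335.COV4
import Vale.Agent.P277.H19.Br2

/-!
# P277, T6 (I): the fibres of a branched covering, with multiplicities
-/

open scoped Manifold ContDiff ComplexOrder Topology
open Vale.Agent.P272.K Vale.Agent.P285.H281.FD Vale.Agent.P267.H175 Set Metric Filter

noncomputable section

namespace Vale.Agent.P277.H371.I

open Vale.Agent.P277.TX Vale.Agent.P277.H19

variable {X : CSp} {V : Set X.pt} {G : X.pt → Cm 4} {c : Cm 4} {r : ℝ} {d : ℕ}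
  {lam : X.pt → ℂ} {θ : Cm 4 → ℂ}

/-- the tuple `p` is the limit of the fibres over points near `z` -/
def LimFib (V : Set X.pt) (G : X.pt → Cm 4) (θ : Cm 4 → ℂ) (z : Cm 4) (p : Fin d → X.pt) : Prop :=
  ∀ W : X.pt → Set X.pt, (∀ k, W (p k) ∈ 𝓝 (p k)) → ∀ᶠ z' in 𝓝 z, θ z' ≠ 0 →
    ∀ x : Fin d → X.pt, Enum V G z' x → ∃ τ : Equiv.Perm (Fin d), ∀ k, x (τ k) ∈ W (p k)

theorem exists_limFib (h : IsCov X V G c r d lam θ) {z : Cm 4} (hz : z ∈ ball c r) :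
    ∃ p : Fin d → X.pt, (∀ k, p k ∈ V ∧ G (p k) = z) ∧ LimFib V G θ z p := by
  classical
  -- the points of the fibre
  have hfin := (h.finite z hz).1
  set F : Finset X.pt := hfin.toFinset with hF
  have hmemF : ∀ y, y ∈ F ↔ y ∈ V ∧ G y = z := fun y => by
    rw [hF, Set.Finite.mem_toFinset]; rfl
  set m : ℕ := F.card with hm
  let eF : Fin m ≃ F := F.equivFin.symm
  let q : Fin m → X.pt := fun k => (eF k).1
  have hq : Function.Injective q := fun k l hkl => eF.injective (Subtype.ext hkl)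
  have hqe : ∀ y, (∃ k, q k = y) ↔ y ∈ V ∧ G y = z := by
    intro y
    rw [← hmemF]
    constructor
    · rintro ⟨k, rfl⟩; exact (eF k).2
    · intro hy
      exact ⟨eF.symm ⟨y, hy⟩, by simp [q]⟩
  obtain ⟨r₁, V₁, d₁, hr₁, hsub₁, hcov₁, hdisj₁, hall₁, hsum₁⟩ :=
    H335.stCovLoc X V G c r d lam θ h z hz m q hq hqe (fun _ => univ) fun _ => univ_mem
  have hcard : Fintype.card (Fin d) = Fintype.card (Σ k, Fin (d₁ k)) := by
    rw [Fintype.card_fin, Fintype.card_sigma]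
    simp only [Fintype.card_fin]
    exact hsum₁.symm
  let e : Fin d ≃ Σ k, Fin (d₁ k) := Fintype.equivOfCardEq hcard
  refine ⟨fun i => q (e i).1, fun i => (hqe _).1 ⟨_, rfl⟩, ?_⟩
  intro W hW
  have hW' : ∀ k, W (q k) ∈ 𝓝 (q k) := by
    intro k
    have h1 : 0 < d₁ k := (hcov₁ k).1.dpos
    have h2 := hW (e.symm ⟨k, ⟨0, h1⟩⟩)
    simpa using h2
  obtain ⟨r₂, V₂, d₂, hr₂, hsub₂, hcov₂, hdisj₂, hall₂, hsum₂⟩ :=
    H335.stCovLoc X V G c r d lam θ h z hz m q hq hqe (fun k => W (q k) ∩ V₁ k) fun k =>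
      inter_mem (hW' k) ((hcov₁ k).1.isOpen.mem_nhds (hcov₁ k).2.1)
  filter_upwards [ball_mem_nhds z hr₁, ball_mem_nhds z hr₂] with z' hz1 hz2 hθ x hx
  choose x₁ hx₁ using fun k => (hcov₁ k).1.enum z' hz1 hθ
  choose x₂ hx₂ using fun k => (hcov₂ k).1.enum z' hz2 hθ
  have hle : ∀ k ∈ (Finset.univ : Finset (Fin m)), d₂ k ≤ d₁ k := by
    intro k _
    have h1 : ∀ j, ∃ i, x₁ k i = x₂ k j := by
      intro j
      obtain ⟨h2, h3⟩ := ((hx₂ k).2 (x₂ k j)).1 ⟨j, rfl⟩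
      exact ((hx₁ k).2 _).2 ⟨((hcov₂ k).2.2.1 h2).1.2, h3⟩
    choose τ hτ using h1
    have h2 : Function.Injective τ := fun i j hij => (hx₂ k).1 (by rw [← hτ i, ← hτ j, hij])
    simpa using Fintype.card_le_of_injective τ h2
  have heq : ∀ k, d₂ k = d₁ k := fun k =>
    (Finset.sum_eq_sum_iff_of_le hle).1 (hsum₂.trans hsum₁.symm) k (Finset.mem_univ k)
  -- the comparison
  let Φ : (Σ k, Fin (d₁ k)) → X.pt := fun p => x₂ p.1 (Fin.cast (heq p.1).symm p.2)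
  have hΦm : ∀ p, Φ p ∈ V₂ p.1 ∧ G (Φ p) = z' := fun p => ((hx₂ p.1).2 _).1 ⟨_, rfl⟩
  have hΦi : Function.Injective Φ := by
    rintro ⟨k, i⟩ ⟨l, j⟩ hij
    have hkl : k = l := by
      by_contra hne
      exact Set.disjoint_left.1 (hdisj₂ k l hne) (hΦm ⟨k, i⟩).1 (hij ▸ (hΦm ⟨l, j⟩).1)
    subst hkl
    have h1 := (hx₂ k).1 hij
    have h2 : i = j := Fin.cast_injective _ h1
    rw [h2]
  have h1 : ∀ i, ∃ j, x j = Φ (e i) := fun i =>
    (hx.2 _).2 ⟨((hcov₂ _).2.2.1 (hΦm (e i)).1).2, (hΦm (e i)).2⟩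
  choose τ hτ using h1
  have hτi : Function.Injective τ := fun i j hij =>
    e.injective (hΦi (by rw [← hτ i, ← hτ j, hij]))
  refine ⟨Equiv.ofBijective τ (Finite.injective_iff_bijective.1 hτi), fun k => ?_⟩
  rw [Equiv.ofBijective_apply, hτ]
  exact ((hcov₂ _).2.2.1 (hΦm (e k)).1).1.1

/-- over unbranched points -/
theorem limFib_of_enum (h : IsCov X V G c r d lam θ) {z : Cm 4} (hz : z ∈ ball c r) (hθ : θ z ≠ 0)
    {x : Fin d → X.pt} (hx : Enum V G z x) : LimFib V G θ z x := by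
  classical
  obtain ⟨p, hp, hlim⟩ := exists_limFib h hz
  have hfin := (h.finite z hz).1
  let W₀ : X.pt → Set X.pt := fun y => ({x | x ∈ V ∧ G x = z} \ {y})ᶜ
  have hW₀ : ∀ y, W₀ y ∈ 𝓝 y := fun y =>
    (hfin.subset diff_subset).isClosed.isOpen_compl.mem_nhds fun h => h.2 rfl
  obtain ⟨τ, hτ⟩ := (hlim W₀ fun k => hW₀ _).self_of_nhds hθ x hx
  have hpx : ∀ k, x (τ k) = p k := by
    intro k
    by_contra hne
    exact hτ k ⟨(hx.2 _).1 ⟨_, rfl⟩, hne⟩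
  intro W hW
  have hW' : ∀ k, W (p k) ∈ 𝓝 (p k) := fun k => by rw [← hpx]; exact hW _
  filter_upwards [hlim W hW'] with z' h1 hθ' x' hx'
  obtain ⟨τ', hτ'⟩ := h1 hθ' x' hx'
  refine ⟨τ.symm.trans τ', fun k => ?_⟩
  have h2 := hτ' (τ.symm k)
  rw [← hpx, Equiv.apply_symm_apply] at h2
  exact h2

/-- fibres with multiplicities -/
structure FibT (V : Set X.pt) (G : X.pt → Cm 4) (θ : Cm 4 → ℂ) (B : Set (Cm 4))
    (e : Cm 4 → Fin d → X.pt) : Prop where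
  mem : ∀ z ∈ B, ∀ k, e z k ∈ V ∧ G (e z k) = z
  enum : ∀ z ∈ B, θ z ≠ 0 → Enum V G z (e z)
  lim : ∀ z ∈ B, LimFib V G θ z (e z)

theorem exists_fibT (h : IsCov X V G c r d lam θ) :
    ∃ e : Cm 4 → Fin d → X.pt, FibT V G θ (ball c r) e := by
  classical
  have key : ∀ z : Cm 4, ∃ p : Fin d → X.pt, z ∈ ball c r → (∀ k, p k ∈ V ∧ G (p k) = z) ∧
      (θ z ≠ 0 → Enum V G z p) ∧ LimFib V G θ z p := by
    intro z
    by_cases hz : z ∈ ball c r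
    · by_cases hθ : θ z = 0
      · obtain ⟨p, h1, h2⟩ := exists_limFib h hz
        exact ⟨p, fun _ => ⟨h1, fun h3 => (h3 hθ).elim, h2⟩⟩
      · obtain ⟨x, hx⟩ := h.enum z hz hθ
        exact ⟨x, fun _ => ⟨fun k => (hx.2 _).1 ⟨k, rfl⟩, fun _ => hx, limFib_of_enum h hz hθ hx⟩⟩
    · obtain ⟨p, -, -⟩ := exists_limFib h (mem_ball_self h.pos)
      exact ⟨p, fun h1 => (hz h1).elim⟩
  choose e he using key
  exact ⟨e, fun z hz => (he z hz).1, fun z hz => (he z hz).2.1, fun z hz => (he z hz).2.2⟩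

variable {B : Set (Cm 4)} {e : Cm 4 → Fin d → X.pt}

/-- the fibres along a curve -/
theorem FibT.ev_perm (he : FibT V G θ B e) {D : ℂ → Cm 4} {ζ₀ : ℂ} (hD : ContinuousAt D ζ₀)
    (hB : ∀ᶠ ζ in 𝓝 ζ₀, D ζ ∈ B) (hne : ∀ᶠ ζ in 𝓝[≠] ζ₀, θ (D ζ) ≠ 0) {W : X.pt → Set X.pt}
    (hW : ∀ k, W (e (D ζ₀) k) ∈ 𝓝 (e (D ζ₀) k)) :
    ∀ᶠ ζ in 𝓝 ζ₀, ∃ τ : Equiv.Perm (Fin d), ∀ k, e (D ζ) (τ k) ∈ W (e (D ζ₀) k) := by
  have h1 := hD.eventually (he.lim _ hB.self_of_nhds W hW)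
  rw [eventually_nhdsWithin_iff] at hne
  filter_upwards [h1, hB, hne] with ζ h2 h3 h4
  by_cases h5 : ζ = ζ₀
  · subst h5
    exact ⟨1, fun k => mem_of_mem_nhds (hW k)⟩
  · exact h2 (h4 h5) _ (he.enum _ h3 (h4 h5))

/-- products over the fibres are continuous -/
theorem FibT.cont_prod (he : FibT V G θ B e) {D : ℂ → Cm 4} {ζ₀ : ℂ} (hD : ContinuousAt D ζ₀)
    (hB : ∀ᶠ ζ in 𝓝 ζ₀, D ζ ∈ B) (hne : ∀ᶠ ζ in 𝓝[≠] ζ₀, θ (D ζ) ≠ 0) {h : X.pt → ℂ}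
    (hh : ∀ k, ContinuousAt h (e (D ζ₀) k)) :
    ContinuousAt (fun ζ => ∏ k, h (e (D ζ) k)) ζ₀ := by
  rw [Metric.continuousAt_iff']
  intro ε hε
  have hc : Continuous fun u : Fin d → ℂ => ∏ k, u k := by fun_prop
  obtain ⟨δ, hδ, h1⟩ := Metric.continuousAt_iff.1 (hc.continuousAt (x := fun k => h (e (D ζ₀) k)))
    ε hε
  have h2 := he.ev_perm hD hB hne (W := fun x => {x' | dist (h x') (h x) < δ}) fun k =>
    (hh k).eventually (ball_mem_nhds _ hδ)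
  filter_upwards [h2] with ζ h3
  obtain ⟨τ, hτ⟩ := h3
  have h4 := h1 (x := fun k => h (e (D ζ) (τ k))) ((dist_pi_lt_iff hδ).2 fun k => hτ k)
  rwa [Equiv.prod_comp τ fun k => h (e (D ζ) k)] at h4

end Vale.Agent.P277.H371.I
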