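import Vale.Agent.P277.H371.I.Nrm
import Vale.Agent.P277.H371.I.Dsc
import Vale.Agent.P277.H19.Thin

/-!
# P277, T6 (I): integrality of the sum of the orders
-/

open scoped Manifold ContDiff ComplexOrder Topology
open Vale.Agent.P272.K Vale.Agent.P285.H281.FD Vale.Agent.P267.H175 Set Metric Filter

noncomputable section

namespace Vale.Agent.P277.H371.I

open Vale.Agent.P277.TX Vale.Agent.P277.H19 Vale.Agent.P277.H884

/-- a root along a curve on which a fixed frame is valid -/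
theorem tor_cont {ι : Type} {q : ℕ} {Δ : Set ℂ} {V : ι → Set ℂ} {g : ι → ι → ℂ → ℂ}
    {n : ι → ℂ → ℂ} (h : Tor ι q Δ V g n) {J : ℂ → ι} (hJ : ∀ x ∈ Δ, x ∈ V (J x)) {σ : ℂ → ℂ}
    (hσ : Sec q g n J Δ σ) {ζ : ℝ → ℂ} (hζ : Continuous ζ) (hζΔ : ∀ t, ζ t ∈ Δ) {i : ι}
    (hi : ∀ t, ζ t ∈ V i) :
    Continuous (fun t => g i (J (ζ t)) (ζ t) * σ (ζ t)) ∧
      ∀ t, (g i (J (ζ t)) (ζ t) * σ (ζ t)) ^ q = n i (ζ t) := by
  constructor
  · rw [continuous_iff_continuousAt]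
    intro t
    have h1 := (hσ (ζ t) (hζΔ t)).2
    have h2 : Tendsto ζ (𝓝 t) (𝓝[Δ] (ζ t)) :=
      tendsto_nhdsWithin_iff.2 ⟨hζ.continuousAt, Eventually.of_forall hζΔ⟩
    have h3 : ContinuousAt (fun t' => g i (J (ζ t)) (ζ t')) t :=
      ContinuousAt.comp (g := g i (J (ζ t)))
        (h.gcont _ (hζΔ t) i (J (ζ t)) (hi t) (hJ _ (hζΔ t))) hζ.continuousAt
    have h4 : Tendsto (fun t' => g (J (ζ t)) (J (ζ t')) (ζ t') * σ (ζ t')) (𝓝 t)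
        (𝓝 (g (J (ζ t)) (J (ζ t)) (ζ t) * σ (ζ t))) := h1.tendsto.comp h2
    have h5 := h3.tendsto.mul h4
    have h6 : g (J (ζ t)) (J (ζ t)) (ζ t) = 1 := h.gself (hζΔ t) (hJ _ (hζΔ t))
    rw [h6, one_mul] at h5
    refine h5.congr' ?_
    have h7 : ∀ᶠ t' in 𝓝 t, ζ t' ∈ V (J (ζ t)) :=
      hζ.continuousAt.eventually_mem (h.nhds _ (hζΔ t) _ (hJ _ (hζΔ t)))
    filter_upwards [h7] with t' ht'
    rw [← mul_assoc, h.coc _ (hζΔ t') _ _ _ (hi t') ht' (hJ _ (hζΔ t'))]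
  · intro t
    rw [mul_pow, (hσ _ (hζΔ t)).1, h.change (ζ t) (hζΔ t) i (J (ζ t)) (hi t) (hJ _ (hζΔ t))]

theorem zpow_sum' {ι : Type*} {a : ℂ} (ha : a ≠ 0) (f : ι → ℤ) (s : Finset ι) :
    a ^ (∑ i ∈ s, f i) = ∏ i ∈ s, a ^ f i := by
  classical
  induction s using Finset.induction_on with
  | empty => simp
  | insert i s hi ih => rw [Finset.sum_insert hi, Finset.prod_insert hi, zpow_add₀ ha, ih]

section enum
variable {X : CSp} {V : Set X.pt} {G : X.pt → Cm 4} {d : ℕ}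

theorem enum_perm {z : Cm 4} {x x' : Fin d → X.pt} (h : Enum V G z x) (h' : Enum V G z x') :
    ∃ τ : Equiv.Perm (Fin d), ∀ k, x (τ k) = x' k := by
  choose τ hτ using fun k => (h.2 (x' k)).2 ((h'.2 _).1 ⟨k, rfl⟩)
  have hτi : Function.Injective τ := fun i j hij => h'.1 (by rw [← hτ i, ← hτ j, hij])
  exact ⟨Equiv.ofBijective τ (Finite.injective_iff_bijective.1 hτi), hτ⟩

end enum

variable {X : CSp} {V : Set X.pt} {G : X.pt → Cm 4} {c : Cm 4} {r : ℝ} {d : ℕ}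
  {lam : X.pt → ℂ} {θ : Cm 4 → ℂ}
variable {Y : Type} [TopologicalSpace Y] [T2Space Y] [CompactSpace Y] [ChartedSpace (Cm 4) Y]
  [IsManifold 𝓘(ℂ, Cm 4) ω Y] {O : Set Y}
  {v : Y → X.pt} {M : Bd Y} {q : ℕ} {T : M.ι → Y → ℂ}

/-- **integrality** (fixed `K`, frames depending only on the point) -/
theorem int_sum₀ (hcov : IsCov X V G c r d lam θ) (hv : IsOpenEmb X O v)
    (hO : DimLe X 2 (v '' O)ᶜ) (hM : IsLB 4 M) (ht : NSec V O v M q T) {N : ℕ} {s : Fin d → ℕ}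
    {φ : Fin d → Cm 4 → X.pt} {w₁ : Cm 4} (h0 : w₁ 0 = 0) (hw₁ : bl w₁ ∈ ball c r)
    (hθ : ∀ᶠ w in 𝓝 w₁, w 0 ≠ 0 → θ (bl w) ≠ 0) (hN : 1 ≤ N) (hs : ∀ k, 1 ≤ s k ∧ s k ∣ N)
    (henum : ∀ᶠ w in 𝓝 w₁, w 0 ≠ 0 → Enum V G ![w 0 ^ N, w 1 * w 0 ^ N, w 2, w 3]
      (fun k => φ k ![w 0 ^ (N / s k), w 1, w 2, w 3]))
    {γ : Fin d → Cm 4 → Y} (hγ : ∀ k, ContinuousAt (γ k) w₁)
    (hlift : ∀ k, ∀ᶠ w in 𝓝 w₁, φ k w ∈ v '' O → γ k w ∈ O ∧ v (γ k w) = φ k w)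
    {J₀ : Y → M.ι} (hJ₀ : ∀ k, γ k w₁ ∈ M.U (J₀ (γ k w₁))) {K : ℕ} (hK : 1 ≤ K)
    {ν : Fin d → ℤ} {Φ : Fin d → Cm 4 → ℂ} (hΦ : ∀ k, ContinuousAt (Φ k) w₁ ∧ Φ k w₁ ≠ 0)
    (hord : ∀ k, ∀ᶠ w in 𝓝 w₁, γ k w ∈ O → v (γ k w) ∈ V → v (γ k w) = φ k w → w 0 ≠ 0 →
      T (J₀ (γ k w₁)) (γ k w) ^ K = w 0 ^ ν k * Φ k w) :
    ((q * K * N : ℕ) : ℤ) ∣ ∑ k, ((N / s k : ℕ) : ℤ) * ν k := by
  classical
  have hq := ht.pos
  have hqK : 1 ≤ q * K := Nat.mul_pos hq hK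
  obtain ⟨δ, hδ, hwind⟩ := zdvd_of_circle hqK hN
  set y₀ : Y := γ ⟨0, hcov.dpos⟩ w₁ with hy₀
  set p : Fin d → Y := fun k => γ k w₁ with hp
  obtain ⟨bY, hbY⟩ := exists_locConst (Set.finite_range p) J₀
  have hbY' : ∀ k, ∀ᶠ y in 𝓝 (p k), bY y = J₀ (p k) := fun k => hbY _ ⟨k, rfl⟩
  -- the constants
  have hΦ0 : ∏ k, Φ k w₁ ≠ 0 := Finset.prod_ne_zero_iff.2 fun k _ => (hΦ k).2
  obtain ⟨δ', hδ', hprod⟩ : ∃ δ' > 0, ∀ u : Fin d → ℂ, (∀ k, ‖u k - Φ k w₁‖ < δ') →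
      ‖(∏ k, u k) / (∏ k, Φ k w₁) - 1‖ < δ := by
    have hc : Continuous fun u : Fin d → ℂ => (∏ k, u k) / (∏ k, Φ k w₁) :=
      (continuous_finsetProd _ fun k _ => continuous_apply k).div_const _
    obtain ⟨δ', hδ', h1⟩ := Metric.continuousAt_iff.1 (hc.continuousAt (x := fun k => Φ k w₁)) δ hδ
    refine ⟨δ', hδ', fun u hu => ?_⟩
    have h2 := h1 (x := u) ((dist_pi_lt_iff hδ').2 fun k => by rw [dist_eq_norm]; exact hu k)
    rw [dist_eq_norm, div_self hΦ0] at h2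
    exact h2
  -- the conditions near `w₁`
  have hP : ∀ᶠ w in 𝓝 w₁, (w 0 ≠ 0 → Enum V G ![w 0 ^ N, w 1 * w 0 ^ N, w 2, w 3]
      (fun k => φ k ![w 0 ^ (N / s k), w 1, w 2, w 3])) ∧
      ∀ k, (φ k w ∈ v '' O → γ k w ∈ O ∧ v (γ k w) = φ k w) ∧ γ k w ∈ M.U (J₀ (p k)) ∧
        (∀ᶠ y in 𝓝 (γ k w), bY y = J₀ (p k)) ∧
        (γ k w ∈ O → v (γ k w) ∈ V → v (γ k w) = φ k w → w 0 ≠ 0 → T (J₀ (p k)) (γ k w) ^ K = w 0 ^ ν k * Φ k w) ∧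
        ‖Φ k w - Φ k w₁‖ < δ' := by
    refine henum.and (eventually_all.2 fun k => ?_)
    have h1 : ∀ᶠ w in 𝓝 w₁, ‖Φ k w - Φ k w₁‖ < δ' := by
      have h2 : ContinuousAt (fun w => ‖Φ k w - Φ k w₁‖) w₁ := ((hΦ k).1.sub continuousAt_const).norm
      refine h2.eventually_lt continuousAt_const ?_
      rw [sub_self, norm_zero]; exact hδ'
    filter_upwards [hlift k, (hγ k).eventually_mem ((hM.isOpen _).mem_nhds (hJ₀ k)),
      (hγ k).eventually (hbY' k).eventually_nhds, hord k, h1] with w g1 g2 g3 g4 g5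
    exact ⟨g1, g2, g3, g4, g5⟩
  have hthin := H19.stThin Y X O v hv hO V G c r d lam θ hcov
  obtain ⟨ε, u, hε, hdisc, hcirc, hθc⟩ := exists_disc hthin hcov.an h0 hw₁ hθ hP hN
  set D : ℂ → Cm 4 := dsc (w₁ 1) u with hD
  have hεN : 0 < ε ^ N := pow_pos hε N
  obtain ⟨e, he⟩ := exists_fibT hcov
  have hOD : ∀ ζ ∈ closedBall (0 : ℂ) (ε ^ N), ∀ x ∈ V, G x = D ζ → x ∈ v '' O := by
    intro ζ hζ x hx hxG
    by_contra hxO
    refine (hdisc ζ hζ).2.1 ⟨x, ⟨hx, ?_⟩, hxG⟩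
    rintro ⟨y, hy, hyx, -⟩
    exact hxO ⟨y, hy, hyx⟩
  have htor := tor_nrm he hv hM ht y₀ (continuous_dsc (w₁ 1) u) isOpen_ball
    (fun ζ hζ => (hdisc ζ hζ).1) (fun ζ hζ => (hdisc ζ hζ).2.2) hOD
  have hJ : ∀ ζ, ∃ b : X.pt → M.ι, ζ ∈ closedBall (0 : ℂ) (ε ^ N) →
      (∀ k, hv.inv y₀ (e (D ζ) k) ∈ M.U (b (e (D ζ) k)) ∧
        ∀ᶠ x in 𝓝 (e (D ζ) k), b x = b (e (D ζ) k)) := by
    intro ζ
    by_cases hζ : ζ ∈ closedBall (0 : ℂ) (ε ^ N)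
    · obtain ⟨b, hb⟩ := htor.cover ζ hζ
      exact ⟨b, fun _ => hb⟩
    · exact ⟨fun _ => J₀ y₀, fun h => (hζ h).elim⟩
  choose J hJ using hJ
  obtain ⟨σ, hσ⟩ := htor.exists_root hεN (J := J) hJ
  -- the circle
  let η : ℝ → ℂ := fun t => ε * Complex.exp (t * Complex.I / N)
  have hηn : ∀ t, ‖η t‖ = ε := by
    intro t
    have h1 : ((t : ℂ) * Complex.I / N) = ((t / N : ℝ) : ℂ) * Complex.I := by push_cast; ring
    simp only [η, norm_mul, h1, Complex.norm_exp_ofReal_mul_I, mul_one, Complex.norm_real,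
      Real.norm_of_nonneg hε.le]
  have hη0 : ∀ t, η t ≠ 0 := fun t h0 => by
    have := hηn t
    rw [h0, norm_zero] at this
    exact hε.ne this
  have hηN0 : ∀ t, η t ^ N ≠ 0 := fun t => pow_ne_zero _ (hη0 t)
  have hNC : (N : ℂ) ≠ 0 := by exact_mod_cast (by omega : N ≠ 0)
  let ζ : ℝ → ℂ := fun t => η t ^ N
  have hζe : ∀ t, ζ t = ε ^ N * Complex.exp (t * Complex.I) := by
    intro t
    simp only [ζ, η, mul_pow]
    rw [← Complex.exp_nat_mul]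
    congr 2
    field_simp
  have hζn : ∀ t, ‖ζ t‖ = ε ^ N := fun t => by simp only [ζ, norm_pow, hηn]
  have hζΔ : ∀ t, ζ t ∈ closedBall (0 : ℂ) (ε ^ N) := fun t => by
    rw [mem_closedBall_zero_iff, hζn]
  have hζc : Continuous ζ := by
    rw [show ζ = fun t : ℝ => (ε : ℂ) ^ N * Complex.exp (t * Complex.I) from funext hζe]
    fun_prop
  -- the sheets over the circle
  let W : Fin d → ℝ → Cm 4 := fun k t => ![η t ^ (N / s k), w₁ 1 + u 0 / η t ^ N, u 1, u 2]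
  have hNs : ∀ k, 1 ≤ N / s k := fun k => by
    obtain ⟨a, ha⟩ := (hs k).2
    have h1 : 1 ≤ a := by
      rcases Nat.eq_zero_or_pos a with h | h
      · rw [h, mul_zero] at ha; omega
      · exact h
    rw [ha, Nat.mul_div_cancel_left _ (hs k).1]
    exact h1
  have hWP := fun k t => (hcirc (η t) (hηn t) (N / s k) (hNs k)).2 k
  have hWE : ∀ t, Enum V G (D (ζ t)) (fun k => φ k (W k t)) := by
    intro t
    have h1 := (hcirc (η t) (hηn t) 1 le_rfl).1 (by simpa using hη0 t)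
    have h2 : (![(![η t ^ 1, w₁ 1 + u 0 / η t ^ N, u 1, u 2] : Cm 4) 0 ^ N,
        (![η t ^ 1, w₁ 1 + u 0 / η t ^ N, u 1, u 2] : Cm 4) 1 *
          (![η t ^ 1, w₁ 1 + u 0 / η t ^ N, u 1, u 2] : Cm 4) 0 ^ N,
        (![η t ^ 1, w₁ 1 + u 0 / η t ^ N, u 1, u 2] : Cm 4) 2,
        (![η t ^ 1, w₁ 1 + u 0 / η t ^ N, u 1, u 2] : Cm 4) 3] : Cm 4) = D (ζ t) := by
      have h3 := hηN0 t
      ext l
      fin_cases l
      · show (η t ^ 1) ^ N = η t ^ N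
        rw [pow_one]
      · show (w₁ 1 + u 0 / η t ^ N) * (η t ^ 1) ^ N = η t ^ N * w₁ 1 + u 0
        rw [pow_one]
        field_simp
      · rfl
      · rfl
    rw [h2] at h1
    have h3 : (fun k => φ k ![(![η t ^ 1, w₁ 1 + u 0 / η t ^ N, u 1, u 2] : Cm 4) 0 ^ (N / s k),
        (![η t ^ 1, w₁ 1 + u 0 / η t ^ N, u 1, u 2] : Cm 4) 1,
        (![η t ^ 1, w₁ 1 + u 0 / η t ^ N, u 1, u 2] : Cm 4) 2,
        (![η t ^ 1, w₁ 1 + u 0 / η t ^ N, u 1, u 2] : Cm 4) 3]) = fun k => φ k (W k t) := by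
      funext k
      congr 1
      ext l
      fin_cases l
      · show (η t ^ 1) ^ (N / s k) = η t ^ (N / s k)
        rw [pow_one]
      · rfl
      · rfl
      · rfl
    rwa [h3] at h1
  have hxV : ∀ k t, φ k (W k t) ∈ V ∧ G (φ k (W k t)) = D (ζ t) := fun k t =>
    ((hWE t).2 _).1 ⟨k, rfl⟩
  have hxO : ∀ k t, φ k (W k t) ∈ v '' O := fun k t =>
    hOD _ (hζΔ t) _ (hxV k t).1 (hxV k t).2
  have hγO : ∀ k t, γ k (W k t) ∈ O ∧ v (γ k (W k t)) = φ k (W k t) := fun k t =>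
    (hWP k t).1 (hxO k t)
  have hinv : ∀ k t, hv.inv y₀ (φ k (W k t)) = γ k (W k t) := fun k t => by
    rw [← (hγO k t).2]; exact hv.inv_apply y₀ (hγO k t).1
  have hperm : ∀ t, ∃ τ : Equiv.Perm (Fin d), ∀ k, e (D (ζ t)) (τ k) = φ k (W k t) := fun t =>
    enum_perm (he.enum _ (hdisc _ (hζΔ t)).1 (hθc _ (hηn t))) (hWE t)
  -- the fixed frame
  let b₀ : X.pt → M.ι := fun x => bY (hv.inv y₀ x)
  have hb₀x : ∀ k t, b₀ (φ k (W k t)) = J₀ (p k) := fun k t => by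
    show bY (hv.inv y₀ (φ k (W k t))) = _
    rw [hinv]
    exact (hWP k t).2.2.1.self_of_nhds
  have hb₀ : ∀ t, ∀ k, hv.inv y₀ (e (D (ζ t)) k) ∈ M.U (b₀ (e (D (ζ t)) k)) ∧
      ∀ᶠ x in 𝓝 (e (D (ζ t)) k), b₀ x = b₀ (e (D (ζ t)) k) := by
    intro t k
    obtain ⟨τ, hτ⟩ := hperm t
    obtain ⟨l, rfl⟩ := τ.surjective k
    rw [hτ, hb₀x, hinv]
    refine ⟨(hWP l t).2.1, ?_⟩
    have h1 : ContinuousAt (hv.inv y₀) (φ l (W l t)) := by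
      rw [← (hγO l t).2]; exact hv.inv_continuousAt y₀ (hγO l t).1
    have h2 := (hWP l t).2.2.1
    rw [← hinv] at h2
    exact h1.eventually h2
  obtain ⟨hbc, hbq⟩ := tor_cont htor hJ hσ hζc hζΔ hb₀
  set b : ℝ → ℂ := fun t => (∏ k, M.g (b₀ (e (D (ζ t)) k)) (J (ζ t) (e (D (ζ t)) k))
    (hv.inv y₀ (e (D (ζ t)) k))) * σ (ζ t) with hb
  have hper : ζ (2 * Real.pi) = ζ 0 := by
    have h1 : Complex.exp (((2 * Real.pi : ℝ) : ℂ) * Complex.I) = 1 := by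
      push_cast
      exact Complex.exp_two_pi_mul_I
    simp only [hζe, h1, Complex.ofReal_zero, zero_mul, Complex.exp_zero]
  have hbper : b (2 * Real.pi) = b 0 := by simp only [hb, hper]
  -- the value
  have hval : ∀ t, b t ^ (q * K) = η t ^ (∑ k, ((N / s k : ℕ) : ℤ) * ν k) * ∏ k, Φ k (W k t) := by
    intro t
    have h1 : b t ^ q = ∏ k, T (b₀ (e (D (ζ t)) k)) (hv.inv y₀ (e (D (ζ t)) k)) := hbq t
    obtain ⟨τ, hτ⟩ := hperm t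
    have h2 : b t ^ q = ∏ k, T (J₀ (p k)) (γ k (W k t)) := by
      rw [h1, ← Equiv.prod_comp τ]
      exact Finset.prod_congr rfl fun k _ => by rw [hτ, hb₀x, hinv]
    rw [pow_mul, h2, ← Finset.prod_pow, zpow_sum' (hη0 t), ← Finset.prod_mul_distrib]
    refine Finset.prod_congr rfl fun k _ => ?_
    have h4 : T (J₀ (p k)) (γ k (W k t)) ^ K = (η t ^ (N / s k)) ^ ν k * Φ k (W k t) :=
      (hWP k t).2.2.2.1 (hγO k t).1 (by rw [(hγO k t).2]; exact (hxV k t).1)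
        (hγO k t).2 (pow_ne_zero _ (hη0 t))
    rw [← zpow_natCast (η t) (N / s k), ← zpow_mul] at h4
    exact h4
  set κ : ℤ := ∑ k, ((N / s k : ℕ) : ℤ) * ν k with hκ
  have hεC : (ε : ℂ) ≠ 0 := by exact_mod_cast hε.ne'
  set C : ℂ := (ε : ℂ) ^ κ * ∏ k, Φ k w₁ with hC
  have hC0 : C ≠ 0 := mul_ne_zero (zpow_ne_zero _ hεC) hΦ0
  have hηκ : ∀ t, η t ^ κ = (ε : ℂ) ^ κ * Complex.exp (t * Complex.I / N) ^ κ := fun t =>
    mul_zpow _ _ _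
  have hm : ∀ t, (∏ k, Φ k (W k t)) / (∏ k, Φ k w₁) =
      b t ^ (q * K) / (C * Complex.exp (t * Complex.I / N) ^ κ) := by
    intro t
    rw [hval, hηκ, hC]
    have h1 : Complex.exp (t * Complex.I / N) ^ κ ≠ 0 := zpow_ne_zero _ (Complex.exp_ne_zero _)
    have h2 : (ε : ℂ) ^ κ ≠ 0 := zpow_ne_zero _ hεC
    field_simp
  have hexpc : Continuous fun t : ℝ => Complex.exp (t * Complex.I / N) ^ κ := by
    have h1 : Continuous fun t : ℝ => Complex.exp ((t : ℂ) * Complex.I / N) := by fun_prop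
    exact continuous_iff_continuousAt.2 fun t =>
      h1.continuousAt.zpow₀ κ (Or.inl (Complex.exp_ne_zero _))
  refine hwind κ b (fun t => (∏ k, Φ k (W k t)) / (∏ k, Φ k w₁)) C hbc hbper ?_ (fun t =>
    hprod _ fun k => (hWP k t).2.2.2.2) hC0 fun t => ?_
  · rw [show (fun t => (∏ k, Φ k (W k t)) / (∏ k, Φ k w₁)) = fun t =>
      b t ^ (q * K) / (C * Complex.exp (t * Complex.I / N) ^ κ) from funext hm]
    exact (hbc.pow _).div (continuous_const.mul hexpc) fun t =>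
      mul_ne_zero hC0 (zpow_ne_zero _ (Complex.exp_ne_zero _))
  · rw [hm t]
    exact (mul_div_cancel₀ _ (mul_ne_zero hC0 (zpow_ne_zero _ (Complex.exp_ne_zero _)))).symm

end Vale.Agent.P277.H371.I
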