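import Vale.Agent.P277.H371.I.Int
import Vale.Agent.P277.H884.S.Setup

/-!
# P277, T6 (I): integrality, final forms
-/

open scoped Manifold ContDiff ComplexOrder Topology
open Vale.Agent.P272.K Vale.Agent.P285.H281.FD Vale.Agent.P267.H175 Set Metric Filter

noncomputable section

namespace Vale.Agent.P277.H371.I

open Vale.Agent.P277.TX Vale.Agent.P277.H19 Vale.Agent.P277.H884

/-- monodromy of an integral power -/
theorem zdvd_of_per {N : ℕ} (hN : 1 ≤ N) : ∃ δ > 0, ∀ (κ : ℤ) (m₀ m₁ : ℂ), ‖m₀ - 1‖ < δ →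
    ‖m₁ - 1‖ < δ → m₀ = Complex.exp (2 * Real.pi * Complex.I / N) ^ κ * m₁ → (N : ℤ) ∣ κ := by
  obtain ⟨δ₁, hδ₁, h1⟩ := eq_one_near hN
  have hc : ContinuousAt (fun p : ℂ × ℂ => p.1 / p.2) (1, 1) :=
    continuousAt_fst.div continuousAt_snd (by simp)
  obtain ⟨δ₂, hδ₂, h2⟩ := Metric.continuousAt_iff.1 hc δ₁ hδ₁
  refine ⟨min 1 δ₂, lt_min one_pos hδ₂, fun κ m₀ m₁ hm₀ hm₁ h => ?_⟩
  have hNC : (N : ℂ) ≠ 0 := by exact_mod_cast (by omega : N ≠ 0)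
  have hne : m₁ ≠ 0 := by
    rintro rfl
    have := hm₁.trans_le (min_le_left _ _)
    rw [zero_sub, norm_neg, norm_one] at this
    exact lt_irrefl _ this
  set E : ℂ := Complex.exp (2 * Real.pi * Complex.I / N) ^ κ with hE
  have h3 : E = m₀ / m₁ := by rw [eq_div_iff hne]; exact h.symm
  have h4 : E ^ N = 1 := by
    have h6 : ∀ x : ℂ, (x ^ κ) ^ N = (x ^ N) ^ κ := fun x => by
      rw [← zpow_natCast, ← zpow_mul, mul_comm κ, zpow_mul, zpow_natCast]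
    rw [hE, h6, ← Complex.exp_nat_mul, mul_div_cancel₀ _ hNC, Complex.exp_two_pi_mul_I, one_zpow]
  have h5 : E = 1 := by
    refine h1 _ h4 ?_
    rw [h3]
    have h7 := h2 (x := (m₀, m₁)) (by
      rw [Prod.dist_eq, max_lt_iff]
      exact ⟨by rw [dist_eq_norm]; exact hm₀.trans_le (min_le_right _ _),
        by rw [dist_eq_norm]; exact hm₁.trans_le (min_le_right _ _)⟩)
    rw [dist_eq_norm] at h7
    simpa using h7
  rw [hE, ← Complex.exp_int_mul] at h5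
  obtain ⟨k, hk⟩ := Complex.exp_eq_one_iff.1 h5
  have hπ : (2 * (Real.pi : ℂ) * Complex.I) ≠ 0 := by
    simp [Real.pi_ne_zero]
  have h7 : (κ : ℂ) = k * N := by
    have h8 : (κ : ℂ) * (2 * Real.pi * Complex.I / N) = (κ / N) * (2 * Real.pi * Complex.I) := by
      ring
    rw [h8] at hk
    have h9 := mul_right_cancel₀ hπ hk
    rw [div_eq_iff hNC] at h9
    exact h9
  have h8 : κ = k * (N : ℤ) := by exact_mod_cast h7
  exact ⟨k, by rw [h8]; ring⟩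

variable {X : CSp} {V : Set X.pt} {G : X.pt → Cm 4} {c : Cm 4} {r : ℝ} {d : ℕ}
  {lam : X.pt → ℂ} {θ : Cm 4 → ℂ}
variable {Y : Type} [TopologicalSpace Y] [T2Space Y] [CompactSpace Y] [ChartedSpace (Cm 4) Y]
  [IsManifold 𝓘(ℂ, Cm 4) ω Y] {O : Set Y}
  {v : Y → X.pt} {M : Bd Y} {q : ℕ} {T : M.ι → Y → ℂ}

/-- **integrality of the sum of the orders** of a section without zeros of a `q`-th power -/
theorem int_sum (hcov : IsCov X V G c r d lam θ) (hv : IsOpenEmb X O v)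
    (hO : DimLe X 2 (v '' O)ᶜ) (hM : IsLB 4 M) (ht : NSec V O v M q T) {N : ℕ} {s : Fin d → ℕ}
    {φ : Fin d → Cm 4 → X.pt} {w₁ : Cm 4} (h0 : w₁ 0 = 0) (hw₁ : bl w₁ ∈ ball c r)
    (hθ : ∀ᶠ w in 𝓝 w₁, w 0 ≠ 0 → θ (bl w) ≠ 0) (hN : 1 ≤ N) (hs : ∀ k, 1 ≤ s k ∧ s k ∣ N)
    (henum : ∀ᶠ w in 𝓝 w₁, w 0 ≠ 0 → Enum V G ![w 0 ^ N, w 1 * w 0 ^ N, w 2, w 3]
      (fun k => φ k ![w 0 ^ (N / s k), w 1, w 2, w 3]))
    {γ : Fin d → Cm 4 → Y} (hγ : ∀ k, ContinuousAt (γ k) w₁)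
    (hlift : ∀ k, ∀ᶠ w in 𝓝 w₁, φ k w ∈ v '' O → γ k w ∈ O ∧ v (γ k w) = φ k w)
    {μ : Fin d → M.ι} (hμ : ∀ k, γ k w₁ ∈ M.U (μ k)) {K : Fin d → ℕ} (hK : ∀ k, 1 ≤ K k)
    {ν : Fin d → ℤ} {Φ : Fin d → Cm 4 → ℂ} (hΦ : ∀ k, ContinuousAt (Φ k) w₁ ∧ Φ k w₁ ≠ 0)
    (hord : ∀ k, ∀ᶠ w in 𝓝 w₁, γ k w ∈ O → v (γ k w) ∈ V → v (γ k w) = φ k w → w 0 ≠ 0 →
      T (μ k) (γ k w) ^ K k = w 0 ^ ν k * Φ k w) :
    ∃ n : ℤ, ∑ k, (ν k : ℝ) / (q * K k * s k) = n := by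
  classical
  choose J₀ hJ₀ using hM.cover
  set K₀ : ℕ := ∏ k, K k with hK₀
  have hK₀1 : 1 ≤ K₀ := Nat.one_le_iff_ne_zero.2 (Finset.prod_ne_zero_iff.2 fun k _ => by
    have := hK k; omega)
  have hdiv : ∀ k, ∃ a, 1 ≤ a ∧ K k * a = K₀ := by
    intro k
    obtain ⟨a, ha⟩ := Finset.dvd_prod_of_mem K (Finset.mem_univ k)
    refine ⟨a, ?_, ha.symm⟩
    rcases Nat.eq_zero_or_pos a with h | h
    · rw [h, mul_zero] at ha
      change K₀ = 0 at ha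
      omega
    · exact h
  choose a ha1 ha using hdiv
  have key := int_sum₀ (K := K₀) (ν := fun k => ν k * a k) (J₀ := J₀)
    (Φ := fun k w => M.g (J₀ (γ k w₁)) (μ k) (γ k w) ^ (q * K₀) * Φ k w ^ a k) hcov hv hO hM ht h0
    hw₁ hθ hN hs henum hγ hlift (fun k => hJ₀ _) hK₀1 (fun k => ⟨?_, ?_⟩) fun k => ?_
  · obtain ⟨n, hn⟩ := key
    refine ⟨n, ?_⟩
    have hqR : (0 : ℝ) < q := by exact_mod_cast ht.pos
    have hK₀R : (0 : ℝ) < K₀ := by exact_mod_cast hK₀1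
    have hNR : (0 : ℝ) < N := by exact_mod_cast hN
    have h1 : (∑ k, ((N / s k : ℕ) : ℝ) * (ν k * a k)) = (q * K₀ * N) * n := by
      have h2 : ((∑ k, ((N / s k : ℕ) : ℤ) * (ν k * a k) : ℤ) : ℝ) =
          (((q * K₀ * N : ℕ) : ℤ) * n : ℤ) := by rw [hn]
      push_cast at h2
      exact h2
    have h3 : ∀ k, (ν k : ℝ) / (q * K k * s k) =
        (((N / s k : ℕ) : ℝ) * (ν k * a k)) / (q * K₀ * N) := by
      intro k
      have hsk : (0 : ℝ) < s k := by exact_mod_cast (hs k).1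
      have hKk : (0 : ℝ) < K k := by exact_mod_cast hK k
      have h4 : ((N / s k : ℕ) : ℝ) = N / s k := Nat.cast_div (hs k).2 hsk.ne'
      have h5 : (K k : ℝ) * a k = K₀ := by exact_mod_cast ha k
      rw [h4, ← h5]
      have h6 : (0 : ℝ) < a k := by exact_mod_cast ha1 k
      field_simp
    rw [Finset.sum_congr rfl fun k _ => h3 k, ← Finset.sum_div, h1]
    field_simp
  · have h1 : ContinuousAt (fun w => M.g (J₀ (γ k w₁)) (μ k) (γ k w)) w₁ :=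
      ContinuousAt.comp (g := M.g (J₀ (γ k w₁)) (μ k)) (f := γ k)
        (lb_continuousAt hM (hJ₀ _) (hμ k)) (hγ k)
    exact (h1.pow _).mul ((hΦ k).1.pow _)
  · exact mul_ne_zero (pow_ne_zero _ (hM.ne_zero _ _ _ (hJ₀ _) (hμ k))) (pow_ne_zero _ (hΦ k).2)
  · filter_upwards [hord k, (hγ k).eventually_mem ((hM.isOpen _).mem_nhds (hJ₀ (γ k w₁))),
      (hγ k).eventually_mem ((hM.isOpen _).mem_nhds (hμ k))] with w h1 h2 h3 hwO hwV hwe hw0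
    have h4 : T (μ k) (γ k w) ^ K₀ = w 0 ^ (ν k * (a k : ℤ)) * Φ k w ^ a k := by
      rw [← ha k, pow_mul, h1 hwO hwV hwe hw0, mul_pow, zpow_mul, zpow_natCast]
    rw [ht.change _ hwO hwV _ _ h2 h3, mul_pow, ← pow_mul, h4]
    ring

/-- **integrality for local functions**: `h p` is a function near `p ∈ Y` -/
theorem int_loc (hcov : IsCov X V G c r d lam θ) (hv : IsOpenEmb X O v)
    (hO : DimLe X 2 (v '' O)ᶜ) {N : ℕ} {s : Fin d → ℕ}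
    {φ : Fin d → Cm 4 → X.pt} {w₁ : Cm 4} (h0 : w₁ 0 = 0) (hw₁ : bl w₁ ∈ ball c r)
    (hθ : ∀ᶠ w in 𝓝 w₁, w 0 ≠ 0 → θ (bl w) ≠ 0) (hN : 1 ≤ N) (hs : ∀ k, 1 ≤ s k ∧ s k ∣ N)
    (henum : ∀ᶠ w in 𝓝 w₁, w 0 ≠ 0 → Enum V G ![w 0 ^ N, w 1 * w 0 ^ N, w 2, w 3]
      (fun k => φ k ![w 0 ^ (N / s k), w 1, w 2, w 3]))
    {γ : Fin d → Cm 4 → Y} (hγ : ∀ k, ContinuousAt (γ k) w₁)
    (hlift : ∀ k, ∀ᶠ w in 𝓝 w₁, φ k w ∈ v '' O → γ k w ∈ O ∧ v (γ k w) = φ k w)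
    {h : Y → Y → ℂ}
    {ν : Fin d → ℤ} {Φ : Fin d → Cm 4 → ℂ} (hΦ : ∀ k, ContinuousAt (Φ k) w₁ ∧ Φ k w₁ ≠ 0)
    (hord : ∀ k, ∀ᶠ w in 𝓝 w₁, γ k w ∈ O → v (γ k w) ∈ V → v (γ k w) = φ k w → w 0 ≠ 0 →
      h (γ k w₁) (γ k w) = w 0 ^ ν k * Φ k w) :
    ∃ n : ℤ, ∑ k, (ν k : ℝ) / s k = n := by
  classical
  obtain ⟨δ, hδ, hwind⟩ := zdvd_of_per hN
  set y₀ : Y := γ ⟨0, hcov.dpos⟩ w₁ with hy₀
  set p : Fin d → Y := fun k => γ k w₁ with hp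
  obtain ⟨bY, hbY⟩ := exists_locConst (Set.finite_range p) (fun y : Y => y)
  have hbY' : ∀ k, ∀ᶠ y in 𝓝 (p k), bY y = p k := fun k => hbY _ ⟨k, rfl⟩
  have hΦ0 : ∏ k, Φ k w₁ ≠ 0 := Finset.prod_ne_zero_iff.2 fun k _ => (hΦ k).2
  obtain ⟨δ', hδ', hprod⟩ : ∃ δ' > 0, ∀ u : Fin d → ℂ, (∀ k, ‖u k - Φ k w₁‖ < δ') →
      ‖(∏ k, u k) / (∏ k, Φ k w₁) - 1‖ < δ := by
    have hc : Continuous fun u : Fin d → ℂ => (∏ k, u k) / (∏ k, Φ k w₁) :=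
      (continuous_finsetProd _ fun k _ => continuous_apply k).div_const _
    obtain ⟨δ', hδ', h1⟩ := Metric.continuousAt_iff.1 (hc.continuousAt (x := fun k => Φ k w₁)) δ hδ
    refine ⟨δ', hδ', fun u hu => ?_⟩
    have h2 := h1 (x := u) ((dist_pi_lt_iff hδ').2 fun k => by rw [dist_eq_norm]; exact hu k)
    rw [dist_eq_norm, div_self hΦ0] at h2
    exact h2
  have hP : ∀ᶠ w in 𝓝 w₁, (w 0 ≠ 0 → Enum V G ![w 0 ^ N, w 1 * w 0 ^ N, w 2, w 3]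
      (fun k => φ k ![w 0 ^ (N / s k), w 1, w 2, w 3])) ∧
      ∀ k, (φ k w ∈ v '' O → γ k w ∈ O ∧ v (γ k w) = φ k w) ∧ bY (γ k w) = p k ∧
        (γ k w ∈ O → v (γ k w) ∈ V → v (γ k w) = φ k w → w 0 ≠ 0 → h (p k) (γ k w) = w 0 ^ ν k * Φ k w) ∧
        ‖Φ k w - Φ k w₁‖ < δ' := by
    refine henum.and (eventually_all.2 fun k => ?_)
    have h1 : ∀ᶠ w in 𝓝 w₁, ‖Φ k w - Φ k w₁‖ < δ' := by
      have h2 : ContinuousAt (fun w => ‖Φ k w - Φ k w₁‖) w₁ := ((hΦ k).1.sub continuousAt_const).norm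
      refine h2.eventually_lt continuousAt_const ?_
      rw [sub_self, norm_zero]; exact hδ'
    filter_upwards [hlift k, (hγ k).eventually (hbY' k), hord k, h1] with w g1 g3 g4 g5
    exact ⟨g1, g3, g4, g5⟩
  have hthin := H19.stThin Y X O v hv hO V G c r d lam θ hcov
  obtain ⟨ε, u, hε, hdisc, hcirc, hθc⟩ := exists_disc hthin hcov.an h0 hw₁ hθ hP hN
  set D : ℂ → Cm 4 := dsc (w₁ 1) u with hD
  have hOD : ∀ ζ ∈ closedBall (0 : ℂ) (ε ^ N), ∀ x ∈ V, G x = D ζ → x ∈ v '' O := by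
    intro ζ hζ x hx hxG
    by_contra hxO
    refine (hdisc ζ hζ).2.1 ⟨x, ⟨hx, ?_⟩, hxG⟩
    rintro ⟨y, hy, hyx, -⟩
    exact hxO ⟨y, hy, hyx⟩
  have hNC : (N : ℂ) ≠ 0 := by exact_mod_cast (by omega : N ≠ 0)
  have hNs : ∀ k, 1 ≤ N / s k := fun k => by
    obtain ⟨a, ha⟩ := (hs k).2
    have h1 : 1 ≤ a := by
      rcases Nat.eq_zero_or_pos a with h | h
      · rw [h, mul_zero] at ha; omega
      · exact h
    rw [ha, Nat.mul_div_cancel_left _ (hs k).1]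
    exact h1
  -- the sheets over the circle
  let W : Fin d → ℂ → Cm 4 := fun k η => ![η ^ (N / s k), w₁ 1 + u 0 / η ^ N, u 1, u 2]
  have hη0 : ∀ η : ℂ, ‖η‖ = ε → η ≠ 0 := by
    rintro η hη rfl
    rw [norm_zero] at hη
    exact hε.ne hη
  have hWP := fun k η (hη : ‖η‖ = ε) => (hcirc η hη (N / s k) (hNs k)).2 k
  have hWE : ∀ η : ℂ, ‖η‖ = ε → Enum V G (D (η ^ N)) (fun k => φ k (W k η)) := by
    intro η hη
    have h1 := (hcirc η hη 1 le_rfl).1 (by simpa using hη0 η hη)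
    have h2 : (![(![η ^ 1, w₁ 1 + u 0 / η ^ N, u 1, u 2] : Cm 4) 0 ^ N,
        (![η ^ 1, w₁ 1 + u 0 / η ^ N, u 1, u 2] : Cm 4) 1 *
          (![η ^ 1, w₁ 1 + u 0 / η ^ N, u 1, u 2] : Cm 4) 0 ^ N,
        (![η ^ 1, w₁ 1 + u 0 / η ^ N, u 1, u 2] : Cm 4) 2,
        (![η ^ 1, w₁ 1 + u 0 / η ^ N, u 1, u 2] : Cm 4) 3] : Cm 4) = D (η ^ N) := by
      have h3 := pow_ne_zero N (hη0 η hη)
      ext l
      fin_cases l
      · show (η ^ 1) ^ N = η ^ N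
        rw [pow_one]
      · show (w₁ 1 + u 0 / η ^ N) * (η ^ 1) ^ N = η ^ N * w₁ 1 + u 0
        rw [pow_one]
        field_simp
      · rfl
      · rfl
    rw [h2] at h1
    have h3 : (fun k => φ k ![(![η ^ 1, w₁ 1 + u 0 / η ^ N, u 1, u 2] : Cm 4) 0 ^ (N / s k),
        (![η ^ 1, w₁ 1 + u 0 / η ^ N, u 1, u 2] : Cm 4) 1,
        (![η ^ 1, w₁ 1 + u 0 / η ^ N, u 1, u 2] : Cm 4) 2,
        (![η ^ 1, w₁ 1 + u 0 / η ^ N, u 1, u 2] : Cm 4) 3]) = fun k => φ k (W k η) := by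
      funext k
      congr 1
      ext l
      fin_cases l
      · show (η ^ 1) ^ (N / s k) = η ^ (N / s k)
        rw [pow_one]
      · rfl
      · rfl
      · rfl
    rwa [h3] at h1
  have hηN : ∀ η : ℂ, ‖η‖ = ε → η ^ N ∈ closedBall (0 : ℂ) (ε ^ N) := fun η hη => by
    rw [mem_closedBall_zero_iff, norm_pow, hη]
  have hxV : ∀ k η, ‖η‖ = ε → φ k (W k η) ∈ V ∧ G (φ k (W k η)) = D (η ^ N) := fun k η hη =>
    ((hWE η hη).2 _).1 ⟨k, rfl⟩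
  have hγO : ∀ k η, ‖η‖ = ε → γ k (W k η) ∈ O ∧ v (γ k (W k η)) = φ k (W k η) := fun k η hη =>
    (hWP k η hη).1 (hOD _ (hηN η hη) _ (hxV k η hη).1 (hxV k η hη).2)
  have hinv : ∀ k η, ‖η‖ = ε → hv.inv y₀ (φ k (W k η)) = γ k (W k η) := fun k η hη => by
    rw [← (hγO k η hη).2]; exact hv.inv_apply y₀ (hγO k η hη).1
  let H : X.pt → ℂ := fun x => h (bY (hv.inv y₀ x)) (hv.inv y₀ x)
  set κ : ℤ := ∑ k, ((N / s k : ℕ) : ℤ) * ν k with hκ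
  have hval : ∀ η : ℂ, ‖η‖ = ε → ∏ k, H (φ k (W k η)) = η ^ κ * ∏ k, Φ k (W k η) := by
    intro η hη
    rw [hκ, zpow_sum' (hη0 η hη), ← Finset.prod_mul_distrib]
    refine Finset.prod_congr rfl fun k _ => ?_
    show h (bY (hv.inv y₀ (φ k (W k η)))) (hv.inv y₀ (φ k (W k η))) = _
    rw [hinv k η hη, (hWP k η hη).2.1]
    have h4 : h (p k) (γ k (W k η)) = (η ^ (N / s k)) ^ ν k * Φ k (W k η) :=
      (hWP k η hη).2.2.1 (hγO k η hη).1 (by rw [(hγO k η hη).2]; exact (hxV k η hη).1)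
        (hγO k η hη).2 (pow_ne_zero _ (hη0 η hη))
    rw [← zpow_natCast η (N / s k), ← zpow_mul] at h4
    exact h4
  -- the two points
  have hεC : (ε : ℂ) ≠ 0 := by exact_mod_cast hε.ne'
  have hεn : ‖(ε : ℂ)‖ = ε := by rw [Complex.norm_real, Real.norm_of_nonneg hε.le]
  set η₁ : ℂ := ε * Complex.exp (2 * Real.pi * Complex.I / N) with hη₁
  have hη₁n : ‖η₁‖ = ε := by
    have h1 : (2 * Real.pi * Complex.I / N : ℂ) = ((2 * Real.pi / N : ℝ) : ℂ) * Complex.I := by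
      push_cast; ring
    rw [hη₁, norm_mul, h1, Complex.norm_exp_ofReal_mul_I, mul_one, hεn]
  have hη₁N : η₁ ^ N = (ε : ℂ) ^ N := by
    rw [hη₁, mul_pow, ← Complex.exp_nat_mul, mul_div_cancel₀ _ hNC, Complex.exp_two_pi_mul_I,
      mul_one]
  have hper : ∏ k, H (φ k (W k η₁)) = ∏ k, H (φ k (W k ε)) := by
    obtain ⟨τ, hτ⟩ := enum_perm (hWE ε hεn) (by rw [← hη₁N]; exact hWE η₁ hη₁n)
    rw [← Equiv.prod_comp τ fun k => H (φ k (W k ε))]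
    exact Finset.prod_congr rfl fun k _ => by rw [hτ]
  rw [hval _ hη₁n, hval _ hεn, hη₁, mul_zpow] at hper
  have hdvd : (N : ℤ) ∣ κ := by
    refine hwind κ ((∏ k, Φ k (W k ε)) / ∏ k, Φ k w₁) ((∏ k, Φ k (W k η₁)) / ∏ k, Φ k w₁)
      (hprod _ fun k => (hWP k _ hεn).2.2.2) (hprod _ fun k => (hWP k _ hη₁n).2.2.2) ?_
    rw [← mul_div_assoc]
    congr 1
    have h1 : (ε : ℂ) ^ κ ≠ 0 := zpow_ne_zero _ hεC
    refine mul_left_cancel₀ h1 ?_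
    rw [← mul_assoc]
    exact hper.symm
  obtain ⟨n, hn⟩ := hdvd
  refine ⟨n, ?_⟩
  have hNR : (0 : ℝ) < N := by exact_mod_cast hN
  have h1 : (∑ k, ((N / s k : ℕ) : ℝ) * ν k) = N * n := by
    have h2 : ((∑ k, ((N / s k : ℕ) : ℤ) * ν k : ℤ) : ℝ) = ((N : ℤ) * n : ℤ) := by rw [← hn]
    push_cast at h2
    exact h2
  have h3 : ∀ k, (ν k : ℝ) / s k = (((N / s k : ℕ) : ℝ) * ν k) / N := by
    intro k
    have hsk : (0 : ℝ) < s k := by exact_mod_cast (hs k).1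
    have h4 : ((N / s k : ℕ) : ℝ) = N / s k := Nat.cast_div (hs k).2 hsk.ne'
    rw [h4]
    field_simp
  rw [Finset.sum_congr rfl fun k _ => h3 k, ← Finset.sum_div, h1]
  field_simp

end Vale.Agent.P277.H371.I
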