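import Vale.Agent.P277.H884.Dis1

/-!
# P277, T6 (I): the winding number argument on an `N`-fold covering of the circle
-/

open scoped Topology
open Set Filter Metric

noncomputable section

namespace Vale.Agent.P277.H371.I

open Vale.Agent.P277.H884

/-- `1` is isolated among the roots of unity of order `n` -/
theorem eq_one_near {n : ℕ} (hn : 1 ≤ n) : ∃ δ > 0, ∀ z : ℂ, z ^ n = 1 → ‖z - 1‖ < δ → z = 1 := by
  have hfin : {z : ℂ | z ^ n = 1 ∧ z ≠ 1}.Finite := by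
    have h1 : {z : ℂ | z ^ n = 1 ∧ z ≠ 1} ⊆ (Polynomial.nthRoots n (1 : ℂ)).toFinset := by
      intro z hz
      rw [Finset.mem_coe, Multiset.mem_toFinset, Polynomial.mem_nthRoots (by omega)]
      exact hz.1
    exact (Finset.finite_toSet _).subset h1
  have h1 : {z : ℂ | z ^ n = 1 ∧ z ≠ 1}ᶜ ∈ 𝓝 (1 : ℂ) :=
    hfin.isClosed.isOpen_compl.mem_nhds fun h => h.2 rfl
  obtain ⟨δ, hδ, h2⟩ := Metric.mem_nhds_iff.1 h1
  refine ⟨δ, hδ, fun z hz hzd => ?_⟩
  by_contra h3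
  exact h2 (mem_ball_iff_norm.2 hzd) ⟨hz, h3⟩

/-- The winding number argument. -/
theorem zdvd_of_circle {q N : ℕ} (hq : 1 ≤ q) (hN : 1 ≤ N) : ∃ δ > 0, ∀ (κ : ℤ) (b m : ℝ → ℂ)
    (C : ℂ), Continuous b → b (2 * Real.pi) = b 0 → Continuous m → (∀ t, ‖m t - 1‖ < δ) → C ≠ 0 →
    (∀ t : ℝ, b t ^ q = C * Complex.exp (t * Complex.I / N) ^ κ * m t) → ((q * N : ℕ) : ℤ) ∣ κ := by
  have hqN : 1 ≤ q * N := Nat.mul_pos hq hN
  obtain ⟨δ₁, hδ₁, h1⟩ := eq_one_near hqN
  -- the principal root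
  have hc : ContinuousAt (fun p : ℂ × ℂ => p.1 ^ ((q : ℂ)⁻¹) / p.2 ^ ((q : ℂ)⁻¹)) (1, 1) := by
    have h2 : ContinuousAt (fun z : ℂ => z ^ ((q : ℂ)⁻¹)) 1 :=
      continuousAt_id.cpow continuousAt_const (by simp)
    have h3 : ContinuousAt (fun p : ℂ × ℂ => p.1 ^ ((q : ℂ)⁻¹)) (1, 1) :=
      ContinuousAt.comp (g := fun z : ℂ => z ^ ((q : ℂ)⁻¹)) (f := fun p : ℂ × ℂ => p.1) h2
        continuousAt_fst
    have h4 : ContinuousAt (fun p : ℂ × ℂ => p.2 ^ ((q : ℂ)⁻¹)) (1, 1) :=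
      ContinuousAt.comp (g := fun z : ℂ => z ^ ((q : ℂ)⁻¹)) (f := fun p : ℂ × ℂ => p.2) h2
        continuousAt_snd
    exact h3.div h4 (by simp)
  obtain ⟨δ₂, hδ₂, h2⟩ := Metric.continuousAt_iff.1 hc δ₁ hδ₁
  refine ⟨min 1 δ₂, lt_min one_pos hδ₂, fun κ b m C hb hb' hm hm1 hC h => ?_⟩
  have hslit : ∀ z : ℂ, ‖z - 1‖ < 1 → z ∈ Complex.slitPlane := by
    intro z hz
    refine Or.inl ?_
    have h1 := (Complex.abs_re_le_norm (z - 1)).trans_lt hz
    rw [Complex.sub_re, Complex.one_re, abs_lt] at h1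
    linarith [h1.1]
  have hm1' : ∀ t, ‖m t - 1‖ < 1 := fun t => (hm1 t).trans_le (min_le_left _ _)
  have hmne : ∀ t, m t ≠ 0 := by
    intro t h0
    have := hm1' t
    rw [h0, zero_sub, norm_neg, norm_one] at this
    exact lt_irrefl _ this
  have hqC : (q : ℂ) ≠ 0 := by exact_mod_cast (by omega : q ≠ 0)
  have hNC : (N : ℂ) ≠ 0 := by exact_mod_cast (by omega : N ≠ 0)
  obtain ⟨c₀, hc₀⟩ := IsAlgClosed.exists_pow_nat_eq C (show 0 < q by omega)
  have hc₀ne : c₀ ≠ 0 := by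
    rintro rfl
    rw [zero_pow (by omega)] at hc₀
    exact hC hc₀.symm
  set R : ℝ → ℂ := fun t => m t ^ ((q : ℂ)⁻¹) with hR
  have hRq : ∀ t, R t ^ q = m t := fun t => Complex.cpow_nat_inv_pow _ (by omega)
  have hRne : ∀ t, R t ≠ 0 := by
    intro t h0
    have h1 := hRq t
    rw [h0, zero_pow (by omega)] at h1
    exact hmne t h1.symm
  have hRc : Continuous R := hm.cpow continuous_const fun t => hslit _ (hm1' t)
  set E : ℝ → ℂ := fun t => Complex.exp (t * κ / (q * N) * Complex.I) with hE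
  have hEne : ∀ t, E t ≠ 0 := fun t => Complex.exp_ne_zero _
  set f : ℝ → ℂ := fun t => b t / (c₀ * E t * R t) with hf
  have hden : ∀ t, c₀ * E t * R t ≠ 0 := fun t => mul_ne_zero (mul_ne_zero hc₀ne (hEne t)) (hRne t)
  have hfc : Continuous f := by
    refine hb.div ((continuous_const.mul ?_).mul hRc) hden
    fun_prop
  have hEq : ∀ t, E t ^ q = Complex.exp (t * Complex.I / N) ^ κ := by
    intro t
    rw [hE]
    simp only
    rw [← Complex.exp_nat_mul, ← Complex.exp_int_mul]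
    congr 1
    field_simp
  have hfq : ∀ t ∈ (univ : Set ℝ), f t ^ q = 1 := by
    intro t _
    rw [hf]
    simp only
    rw [div_pow, mul_pow, mul_pow, hRq, hc₀, h t, hEq]
    exact div_self (mul_ne_zero (mul_ne_zero hC (zpow_ne_zero _ (Complex.exp_ne_zero _))) (hmne t))
  have h3 := eq_of_pow_eq_one isPreconnected_univ hq hfc.continuousOn hfq (mem_univ (0 : ℝ))
    (mem_univ (2 * Real.pi))
  have hb0 : b 0 ≠ 0 := by
    intro h0
    have h2 := h 0
    rw [h0, zero_pow (by omega)] at h2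
    exact (mul_ne_zero (mul_ne_zero hC (zpow_ne_zero _ (Complex.exp_ne_zero _))) (hmne 0)) h2.symm
  have hE0 : E 0 = 1 := by simp [hE]
  have h4 : E (2 * Real.pi) = R 0 / R (2 * Real.pi) := by
    simp only [hf, hb', hE0, mul_one] at h3
    rw [div_eq_div_iff (mul_ne_zero hc₀ne (hRne 0)) (hden _)] at h3
    have h5 := mul_left_cancel₀ hb0 h3
    rw [eq_div_iff (hRne _)]
    have h6 : c₀ * (E (2 * Real.pi) * R (2 * Real.pi)) = c₀ * R 0 := by rw [← mul_assoc]; exact h5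
    exact mul_left_cancel₀ hc₀ne h6
  have h5 : E (2 * Real.pi) ^ (q * N) = 1 := by
    rw [hE]
    simp only
    rw [← Complex.exp_nat_mul]
    have h6 : ((q * N : ℕ) : ℂ) * (((2 * Real.pi : ℝ) : ℂ) * κ / (q * N) * Complex.I) =
        κ * (2 * Real.pi * Complex.I) := by
      push_cast
      field_simp
    rw [h6]
    exact Complex.exp_int_mul_two_pi_mul_I κ
  have h6 : E (2 * Real.pi) = 1 := by
    refine h1 _ h5 ?_
    rw [h4]
    have h7 := h2 (x := (m 0, m (2 * Real.pi))) (by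
      rw [Prod.dist_eq, max_lt_iff]
      exact ⟨by rw [dist_eq_norm]; exact (hm1 0).trans_le (min_le_right _ _),
        by rw [dist_eq_norm]; exact (hm1 _).trans_le (min_le_right _ _)⟩)
    rw [dist_eq_norm] at h7
    simpa using h7
  obtain ⟨k, hk⟩ := Complex.exp_eq_one_iff.1 h6
  have hπ : (2 * (Real.pi : ℂ) * Complex.I) ≠ 0 := by
    simp [Real.pi_ne_zero]
  have h7 : (κ : ℂ) = k * (q * N) := by
    have h8 : ((2 * Real.pi : ℝ) : ℂ) * κ / (q * N) * Complex.I =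
        (κ / (q * N)) * (2 * Real.pi * Complex.I) := by
      push_cast; ring
    rw [h8] at hk
    have h9 := mul_right_cancel₀ hπ hk
    rw [div_eq_iff (mul_ne_zero hqC hNC)] at h9
    exact h9
  have h8 : κ = k * ((q * N : ℕ) : ℤ) := by
    have : ((κ : ℤ) : ℂ) = ((k * ((q * N : ℕ) : ℤ) : ℤ) : ℂ) := by
      push_cast
      exact h7
    exact_mod_cast this
  exact ⟨k, by rw [h8]; ring⟩

end Vale.Agent.P277.H371.I
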