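import Vale.Agent.P277.H371.I.Fib
import Vale.Agent.P277.H371.I.Wind
import Vale.Agent.P277.H884.Dis2
import Vale.Agent.P277.A.Emb

/-!
# P277, T6 (I): the norm of a section of a `q`-th power along a disc
-/

open scoped Manifold ContDiff ComplexOrder Topology
open Vale.Agent.P272.K Vale.Agent.P285.H281.FD Vale.Agent.P267.H175 Set Metric Filter

noncomputable section

namespace Vale.Agent.P277.H371.I

open Vale.Agent.P277.TX Vale.Agent.P277.H19 Vale.Agent.P277.H884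

/-- locally constant functions with prescribed values on a finite set -/
theorem exists_locConst {α ι : Type*} [TopologicalSpace α] [T2Space α] {P : Set α} (hP : P.Finite)
    (J : α → ι) : ∃ b : α → ι, ∀ p ∈ P, ∀ᶠ x in 𝓝 p, b x = J p := by
  classical
  obtain ⟨U, hU, hd⟩ := hP.t2_separation
  refine ⟨fun x => if h : ∃ p ∈ P, x ∈ U p then J h.choose else J x, fun p hp => ?_⟩
  filter_upwards [(hU p).2.mem_nhds (hU p).1] with x hx
  have h1 : ∃ p ∈ P, x ∈ U p := ⟨p, hp, hx⟩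
  rw [dif_pos h1]
  congr 1
  by_contra hne
  exact Set.disjoint_left.1 (hd h1.choose_spec.1 hp hne) h1.choose_spec.2 hx

variable {X : CSp} {V : Set X.pt} {G : X.pt → Cm 4} {c : Cm 4} {r : ℝ} {d : ℕ}
  {lam : X.pt → ℂ} {θ : Cm 4 → ℂ}
variable {Y : Type} [TopologicalSpace Y] [T2Space Y] [ChartedSpace (Cm 4) Y] {O : Set Y}
  {v : Y → X.pt} {M : Bd Y} {q : ℕ} {t : M.ι → Y → ℂ}

/-- a section without zeros of `M ^ q` over `v ⁻¹ V ∩ O` -/
structure NSec (V : Set X.pt) (O : Set Y) (v : Y → X.pt) (M : Bd Y) (q : ℕ) (t : M.ι → Y → ℂ) :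
    Prop where
  pos : 1 ≤ q
  cont : ∀ y ∈ O, v y ∈ V → ∀ j, y ∈ M.U j → ContinuousAt (t j) y
  ne : ∀ y ∈ O, v y ∈ V → ∀ j, y ∈ M.U j → t j y ≠ 0
  change : ∀ y ∈ O, v y ∈ V → ∀ j k, y ∈ M.U j → y ∈ M.U k → t j y = M.g j k y ^ q * t k y

/-- the norm along the curve `D` -/
theorem tor_nrm {B : Set (Cm 4)} {e : Cm 4 → Fin d → X.pt} (he : FibT V G θ B e)
    (hv : IsOpenEmb X O v) (hM : IsLB 4 M) (ht : NSec V O v M q t) (y₀ : Y) {D : ℂ → Cm 4}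
    (hD : Continuous D) {ε : ℝ} (hB : IsOpen B) (hDB : ∀ ζ ∈ closedBall (0 : ℂ) ε, D ζ ∈ B)
    (hne : ∀ ζ ∈ closedBall (0 : ℂ) ε, ∀ᶠ ζ' in 𝓝[≠] ζ, θ (D ζ') ≠ 0)
    (hO : ∀ ζ ∈ closedBall (0 : ℂ) ε, ∀ x ∈ V, G x = D ζ → x ∈ v '' O) :
    Tor (X.pt → M.ι) q (closedBall 0 ε)
      (fun b => {ζ | ∀ k, hv.inv y₀ (e (D ζ) k) ∈ M.U (b (e (D ζ) k)) ∧
        ∀ᶠ x in 𝓝 (e (D ζ) k), b x = b (e (D ζ) k)})
      (fun b b' ζ => ∏ k, M.g (b (e (D ζ) k)) (b' (e (D ζ) k)) (hv.inv y₀ (e (D ζ) k)))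
      (fun b ζ => ∏ k, t (b (e (D ζ) k)) (hv.inv y₀ (e (D ζ) k))) := by
  have hB' : ∀ ζ ∈ closedBall (0 : ℂ) ε, ∀ᶠ ζ' in 𝓝 ζ, D ζ' ∈ B := fun ζ hζ =>
    hD.continuousAt.eventually (hB.mem_nhds (hDB ζ hζ))
  have hO' : ∀ ζ ∈ closedBall (0 : ℂ) ε, ∀ k, e (D ζ) k ∈ v '' O := fun ζ hζ k =>
    hO ζ hζ _ (he.mem _ (hDB ζ hζ) k).1 (he.mem _ (hDB ζ hζ) k).2
  have hVm : ∀ ζ ∈ closedBall (0 : ℂ) ε, ∀ k, e (D ζ) k ∈ V := fun ζ hζ k =>
    (he.mem _ (hDB ζ hζ) k).1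
  have hic : ∀ x ∈ v '' O, ContinuousAt (hv.inv y₀) x := by
    rintro _ ⟨y, hy, rfl⟩
    exact hv.inv_continuousAt y₀ hy
  have him : ∀ x ∈ v '' O, hv.inv y₀ x ∈ O := fun x hx => hv.inv_mem y₀ hx
  have hiv : ∀ x ∈ v '' O, v (hv.inv y₀ x) = x := fun x hx => hv.apply_inv y₀ hx
  refine ⟨ht.pos, fun ζ hζ => ?_, fun ζ hζ b hb => ?_, fun ζ hζ b b' hb hb' => ?_,
    fun ζ hζ b b' hb hb' => ?_, fun ζ hζ b b' b'' hb hb' hb'' => ?_, fun ζ hζ b hb => ?_,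
    fun ζ hζ b hb => ?_, fun ζ hζ b b' hb hb' => ?_⟩
  · choose J hJ using fun x : X.pt => hM.cover (hv.inv y₀ x)
    obtain ⟨b, hb⟩ := exists_locConst (Set.finite_range (e (D ζ))) J
    refine ⟨b, fun k => ?_⟩
    have h1 := hb _ ⟨k, rfl⟩
    have h2 := h1.self_of_nhds
    refine ⟨?_, ?_⟩
    · rw [h2]; exact hJ _
    · rw [h2]; exact h1
  · have h1 := he.ev_perm hD.continuousAt (hB' ζ hζ) (hne ζ hζ) (W := fun _ => {x' |
      hv.inv y₀ x' ∈ M.U (b x') ∧ ∀ᶠ x'' in 𝓝 x', b x'' = b x'}) (fun k => ?_)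
    · filter_upwards [h1] with ζ' h2
      obtain ⟨τ, hτ⟩ := h2
      intro k
      have h3 := hτ (τ.symm k)
      rw [Equiv.apply_symm_apply] at h3
      exact h3
    · obtain ⟨h2, h3⟩ := hb k
      have h4 := (hic _ (hO' ζ hζ k)).eventually ((hM.isOpen _).mem_nhds h2)
      filter_upwards [h3, h4, h3.eventually_nhds] with x' h5 h6 h7
      refine ⟨?_, ?_⟩
      · rw [h5]; exact h6
      · rw [h5]; exact h7
  · refine he.cont_prod (h := fun x => M.g (b x) (b' x) (hv.inv y₀ x)) hD.continuousAt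
      (hB' ζ hζ) (hne ζ hζ) fun k => ?_
    have h1 : ContinuousAt (fun x => M.g (b (e (D ζ) k)) (b' (e (D ζ) k)) (hv.inv y₀ x))
        (e (D ζ) k) :=
      ContinuousAt.comp (g := M.g (b (e (D ζ) k)) (b' (e (D ζ) k)))
        (lb_continuousAt hM (hb k).1 (hb' k).1) (hic _ (hO' ζ hζ k))
    refine h1.congr ?_
    filter_upwards [(hb k).2, (hb' k).2] with x h2 h3
    rw [h2, h3]
  · exact Finset.prod_ne_zero_iff.2 fun k _ => hM.ne_zero _ _ _ (hb k).1 (hb' k).1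
  · show (∏ k, _) * (∏ k, _) = ∏ k, _
    rw [← Finset.prod_mul_distrib]
    exact Finset.prod_congr rfl fun k _ => hM.cocycle _ _ _ _ (hb k).1 (hb' k).1 (hb'' k).1
  · refine he.cont_prod (h := fun x => t (b x) (hv.inv y₀ x)) hD.continuousAt
      (hB' ζ hζ) (hne ζ hζ) fun k => ?_
    have hx := hO' ζ hζ k
    have h1 : ContinuousAt (fun x => t (b (e (D ζ) k)) (hv.inv y₀ x)) (e (D ζ) k) :=
      ContinuousAt.comp (g := t (b (e (D ζ) k)))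
        (ht.cont _ (him _ hx) (by rw [hiv _ hx]; exact hVm ζ hζ k) _ (hb k).1) (hic _ hx)
    refine h1.congr ?_
    filter_upwards [(hb k).2] with x h2
    rw [h2]
  · refine Finset.prod_ne_zero_iff.2 fun k _ => ?_
    have hx := hO' ζ hζ k
    exact ht.ne _ (him _ hx) (by rw [hiv _ hx]; exact hVm ζ hζ k) _ (hb k).1
  · show ∏ k, _ = (∏ k, _) ^ q * ∏ k, _
    rw [← Finset.prod_pow, ← Finset.prod_mul_distrib]
    refine Finset.prod_congr rfl fun k _ => ?_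
    have hx := hO' ζ hζ k
    exact ht.change _ (him _ hx) (by rw [hiv _ hx]; exact hVm ζ hζ k) _ _ (hb k).1 (hb' k).1

end Vale.Agent.P277.H371.I
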