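import Vale.Agent.P277.H371.I.Stp
import Vale.Agent.P277.H615.R.DatumV
import Vale.Agent.P277.H762.CL1

/-!
# P277, T6 (I): the literal forms for the stage lemma
-/

open scoped Manifold ContDiff ComplexOrder Topology
open Vale.Agent.P272.K Vale.Agent.P285.H281.FD Vale.Agent.P267.H175 Set Metric Filter

noncomputable section

namespace Vale.Agent.P277.H371.I

open Vale.Agent.P277.TX Vale.Agent.P277.T2 Vale.Agent.P277.H19 Vale.Agent.P277.H884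
open Vale.Agent.P277.H884.S Vale.Agent.P277.H615

variable {Y : Type} [TopologicalSpace Y] [T2Space Y] [CompactSpace Y] [ChartedSpace (Cm 4) Y]
  [IsManifold 𝓘(ℂ, Cm 4) ω Y]

section
variable {X : CSp} {k : ℕ} {M : Fin k → Bd Y} {m : Fin k → ℕ}
  {L : Fin k → Bd X.pt} {O : Set Y} {v : Y → X.pt}
  {T : ∀ e, (L e).ι → (((Bd.can 4 Y).pow (m e)).mul (M e)).ι → Y → ℂ} {S : Set X.pt}
  {W : Set (Cm 4)} {w₂ : Cm 4} {φ : Cm 4 → X.pt} {γ : Cm 4 → Y} {ch : Chart 4 Y}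
  {μ : ∀ e, (M e).ι} {i : ∀ e, (L e).ι} {x : Fin k → ℚ} {J : ℕ}

theorem germV_lift (h : GermV O v T S W w₂ φ γ ch μ i x J) :
    ∀ᶠ w in 𝓝 w₂, φ w ∈ v '' O → γ w ∈ O ∧ v (γ w) = φ w := by
  filter_upwards [h.isOpen.mem_nhds h.mem] with w hw hO
  have h1 := h.lift1 w hw hO
  exact ⟨h1, h.lift2 w hw h1⟩

end

variable {X : CSp} {S V : Set X.pt} {G₀ : X.pt → Cm 4} {r₀ : ℝ} {d : ℕ}
  {lam : X.pt → ℂ} {θ : Cm 4 → ℂ} {n₀ : ℕ} {ζ : Fin n₀ → X.pt → ℂ} {a : Fin d → X.pt → ℂ}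
  {b κ : Cm 4 → ℂ} {N : ℕ} {s : Fin d → ℕ} {σ : Equiv.Perm (Fin d)} {φ : Fin d → Cm 4 → X.pt}
  {w₁ : Cm 4}
variable {VV : CSp} {vV : Y → VV.pt} {D : Set Y} {K : ℕ} {M : Fin K → Bd Y} {m : Fin K → ℕ}
  {L : Fin K → Bd X.pt} {O : Set Y} {v : Y → X.pt} {P Q : Fin K → ℕ}
  {T : ∀ e, (L e).ι → (((Bd.can 4 Y).pow (m e)).mul (M e)).ι → Y → ℂ}
  {W : Fin d → Set (Cm 4)} {γ : Fin d → Cm 4 → Y} {ch : Fin d → Chart 4 Y}
  {μ : Fin d → ∀ e, (M e).ι} {i : Fin d → ∀ e, (L e).ι} {i₀ : ∀ e, (L e).ι}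
  {x : Fin d → Fin K → ℚ} {J : Fin d → ℕ} {S' : Set X.pt}

/-- **integrality of `λ_e`** -/
theorem stInt (h : Stp X S V G₀ r₀ d lam θ ζ a b κ N s σ φ w₁) (hM : ∀ e, IsLB 4 (M e)) (e : Fin K)
    (htw : Tw0 vV D (((Bd.can 4 Y).pow (m e)).mul (M e)) X (L e) O v (P e) (Q e) (T e))
    (hi₀ : V ⊆ (L e).U (i₀ e))
    (hl : ∀ k, GermV O v T S' (W k) w₁ (φ k) (γ k) (ch k) (μ k) (i k) (x k) (J k)) :
    ∃ la : ℤ, (la : ℚ) = ∑ k, x k e / (Q e * s k) := by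
  choose K' hK' hx using fun k => (hl k).unit
  choose ν Φ hν hΦan hΦ0 hord using fun k => hx k e
  obtain ⟨la, hla⟩ := int_stp (L := (L e).pow (P e)) (M := M e) (m := m e) (Q := Q e) (T := T e)
    (i₀ := i₀ e) (γ := γ) (ch := ch) (μ := fun k => μ k e) (i := fun k => i k e) (K := K') (ν := ν)
    (Φ := Φ) h htw.emb htw.dim htw.lb hi₀ (hM e) htw.hQ htw.iso
    (fun k => ((hl k).lift w₁ (hl k).mem).1) (fun k => ((hl k).lift w₁ (hl k).mem).2.1)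
    (fun k => (hl k).memN w₁ (hl k).mem e) (fun k => (hl k).memU w₁ (hl k).mem e)
    (fun k => germV_lift (hl k)) hK' (fun k => ⟨(hΦan k).continuousAt, hΦ0 k⟩) hord
  refine ⟨la, ?_⟩
  have h1 : ((la : ℚ) : ℝ) = ((∑ k, x k e / (Q e * s k) : ℚ) : ℝ) := by
    push_cast
    rw [← hla]
    refine Finset.sum_congr rfl fun k _ => ?_
    have h2 : (ν k : ℝ) = x k e * K' k := by exact_mod_cast congrArg (fun q : ℚ => (q : ℝ)) (hν k)
    have h3 : (0 : ℝ) < K' k := by exact_mod_cast hK' k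
    have h4 : (0 : ℝ) < Q e := by exact_mod_cast htw.hQ
    have h5 : (0 : ℝ) < s k := by exact_mod_cast (h.s1 k).1
    rw [h2]
    field_simp
  exact_mod_cast h1

omit [IsManifold 𝓘(ℂ, Cm 4) ω Y] [T2Space Y] [CompactSpace Y] in
/-- the local equation of `G` along a local coordinate system adapted to `G` -/
theorem leq_par {G : Set Y} {ξ : Cm 4 → Y} {w₁ : Cm 4} {r : ℝ} (h : IsPar G ξ w₁ r) {z : Y → ℂ}
    (hz : IsLEq G (ξ w₁) z) :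
    ∃ Φ : Cm 4 → ℂ, ContinuousAt Φ w₁ ∧ Φ w₁ ≠ 0 ∧ ∀ᶠ w in 𝓝 w₁, z (ξ w) = w 0 * Φ w := by
  have hw₁ := mem_ball_self (x := w₁) h.pos
  set e : Chart 4 Y := chartAt (Cm 4) (ξ w₁) with he
  have hA : At e (ξ w₁) := ⟨chart_mem_atlas _ _, mem_chart_source _ _⟩
  obtain ⟨h1, h2⟩ := h.an w₁ hw₁ e hA
  obtain ⟨h3, h4⟩ := hz.2 e hA
  have hG : ξ w₁ ∈ G := (h.mem w₁ hw₁).2 h.zero
  have hz0 : z (ξ w₁) = 0 := hz.1.self_of_nhds.2 hG
  have h5 := h4 hz0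
  set k : Cm 4 → ℂ := fun w => z (e.symm (e (ξ w))) with hk
  have hkan : AnalyticAt ℂ k w₁ := h3.comp_of_eq h1 rfl
  have hke : ∀ᶠ w in 𝓝 w₁, k w = z (ξ w) := by
    filter_upwards [(h.cont w₁ hw₁).eventually_mem (e.open_source.mem_nhds hA.2)] with w hw
    rw [hk]
    simp only
    rw [e.left_inv hw]
  have hkd : fderiv ℂ k w₁ ≠ 0 := by
    have h6 : fderiv ℂ k w₁ = (fderiv ℂ (fun x => z (e.symm x)) (e (ξ w₁))).comp
        (fderiv ℂ (fun w => e (ξ w)) w₁) :=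
      (HasFDerivAt.comp (g := fun x => z (e.symm x)) (f := fun w => e (ξ w)) w₁
        h3.differentiableAt.hasFDerivAt h1.differentiableAt.hasFDerivAt).fderiv
    intro h0
    apply h5
    have h7 : Function.Surjective (fderiv ℂ (fun w => e (ξ w)) w₁) := by
      have h8 := LinearMap.isUnit_iff_isUnit_det
        (fderiv ℂ (fun w => e (ξ w)) w₁ : Cm 4 →ₗ[ℂ] Cm 4)
      have h9 : IsUnit (fderiv ℂ (fun w => e (ξ w)) w₁ : Cm 4 →ₗ[ℂ] Cm 4) :=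
        h8.2 (isUnit_iff_ne_zero.2 h2)
      exact ((Module.End.isUnit_iff _).1 h9).surjective
    ext u : 1
    obtain ⟨u', rfl⟩ := h7 u
    have h8 := congrArg (fun A : Cm 4 →L[ℂ] ℂ => A u') h6
    simp only [h0] at h8
    exact h8.symm
  have h0an : AnalyticAt ℂ (fun w : Cm 4 => w 0) w₁ :=
    (ContinuousLinearMap.proj (R := ℂ) (φ := fun _ : Fin 4 => ℂ) 0).analyticAt w₁
  have h0d : fderiv ℂ (fun w : Cm 4 => w 0) w₁ ≠ 0 := by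
    have h6 : fderiv ℂ (fun w : Cm 4 => w 0) w₁ =
        ContinuousLinearMap.proj (R := ℂ) (φ := fun _ : Fin 4 => ℂ) 0 :=
      (ContinuousLinearMap.proj (R := ℂ) (φ := fun _ : Fin 4 => ℂ) 0).fderiv
    intro h7
    rw [h6] at h7
    have h8 := congrArg (fun A : Cm 4 →L[ℂ] ℂ => A (Pi.single 0 1)) h7
    simp at h8
  have hzz : ∀ᶠ w in 𝓝 w₁, w 0 = 0 → k w = 0 := by
    filter_upwards [hke, ball_mem_nhds w₁ h.pos, (h.cont w₁ hw₁).eventually hz.1] with w g1 g2 g3 g4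
    rw [g1, g3]
    exact (h.mem w g2).2 g4
  obtain ⟨u, hu, hu0, hku⟩ := H762.exists_div_unit (n := 3) (V := Cm 4) (by simp) h0an h0d h.zero
    hkan hkd hzz
  refine ⟨u, hu.continuousAt, hu0, ?_⟩
  filter_upwards [hku, hke] with w g1 g2
  rw [← g2, g1]

/-- **integrality of `n_l`** -/
theorem stIntG {q : ℕ} {G : Fin q → Set Y} (h : Stp X S V G₀ r₀ d lam θ ζ a b κ N s σ φ w₁)
    (hv : IsOpenEmb X O v) (hO : DimLe X 2 (v '' O)ᶜ)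
    (hlift : ∀ k, ∀ᶠ w in 𝓝 w₁, φ k w ∈ v '' O → γ k w ∈ O ∧ v (γ k w) = φ k w)
    {l : Fin d → Fin q} {r : Fin d → ℝ} (hpar : ∀ k, IsPar (G (l k)) (γ k) w₁ (r k)) (l₀ : Fin q)
    (hleq : ∀ y, ∃ z : Y → ℂ, IsLEq (G l₀) y z) (hcr : ∀ k, l k ≠ l₀ → γ k w₁ ∉ G l₀) :
    ∃ n : ℕ, (n : ℚ) = ∑ k, if l k = l₀ then 1 / (s k : ℚ) else 0 := by
  classical
  choose z hz using hleq
  have hγ : ∀ k, ContinuousAt (γ k) w₁ := fun k => (hpar k).cont w₁ (mem_ball_self (hpar k).pos)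
  have key : ∀ k, ∃ Φ : Cm 4 → ℂ, (ContinuousAt Φ w₁ ∧ Φ w₁ ≠ 0) ∧
      ∀ᶠ w in 𝓝 w₁, γ k w ∈ O → w 0 ≠ 0 →
        (if γ k w₁ ∈ G l₀ then z (γ k w₁) (γ k w) else 1) =
          w 0 ^ (if l k = l₀ then (1 : ℤ) else 0) * Φ w := by
    intro k
    by_cases hk : l k = l₀
    · have h1 : IsPar (G l₀) (γ k) w₁ (r k) := hk ▸ hpar k
      have h2 : γ k w₁ ∈ G l₀ := (h1.mem w₁ (mem_ball_self h1.pos)).2 h1.zero
      obtain ⟨Φ, g1, g2, g3⟩ := leq_par h1 (hz (γ k w₁))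
      refine ⟨Φ, ⟨g1, g2⟩, ?_⟩
      filter_upwards [g3] with w hw _ _
      rw [if_pos h2, if_pos hk, zpow_one]
      exact hw
    · refine ⟨fun _ => 1, ⟨continuousAt_const, one_ne_zero⟩, Eventually.of_forall fun w _ _ => ?_⟩
      rw [if_neg (hcr k hk), if_neg hk, zpow_zero, one_mul]
  choose Φ hΦ hord using key
  obtain ⟨n, hn⟩ := int_loc_stp h hv hO hγ hlift
    (g := fun p y => if p ∈ G l₀ then z p y else 1) hΦ hord
  have h1 : ((n : ℚ) : ℝ) = ((∑ k, if l k = l₀ then 1 / (s k : ℚ) else 0 : ℚ) : ℝ) := by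
    push_cast
    rw [← hn]
    refine Finset.sum_congr rfl fun k _ => ?_
    split_ifs <;> simp
  have h2 : (n : ℚ) = ∑ k, if l k = l₀ then 1 / (s k : ℚ) else 0 := by exact_mod_cast h1
  have h3 : 0 ≤ n := by
    have h4 : (0 : ℚ) ≤ n := by
      rw [h2]
      exact Finset.sum_nonneg fun k _ => by split_ifs <;> positivity
    exact_mod_cast h4
  refine ⟨n.toNat, ?_⟩
  rw [← h2]
  have h4 : ((n.toNat : ℤ) : ℚ) = (n : ℚ) := by rw [Int.toNat_of_nonneg h3]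
  exact_mod_cast h4

end Vale.Agent.P277.H371.I
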